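import Vale.Agent.P052.R4.H373.Simplex
import Vale.Agent.P052.Defs

/-!
Sets in a small ball: the cells of a regular simplex centred at the centre of the ball.
-/

namespace Vale.Agent.P052.J373

open Metric Set Module
open scoped RealInnerProductSpace

/-- a regular simplex exists. -/
theorem exists_isReg (d : ℕ) : ∃ w : Fin (d + 1) → E d, IsReg w := by
  let F := EuclideanSpace ℝ (Fin (d + 1))
  let one : F := WithLp.toLp 2 (fun _ => (1 : ℝ))
  have hone : one ≠ 0 := by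
    intro h
    have := congrArg (fun z : F => z 0) h
    simp [one] at this
  have : Fact (finrank ℝ F = d + 1) := ⟨by rw [finrank_euclideanSpace, Fintype.card_fin]⟩
  have hV : finrank ℝ (ℝ ∙ one)ᗮ = d := Submodule.finrank_orthogonal_span_singleton hone
  let e : (ℝ ∙ one)ᗮ ≃ₗᵢ[ℝ] E d :=
    ((stdOrthonormalBasis ℝ (ℝ ∙ one)ᗮ).reindex (finCongr hV)).repr
  let u : Fin (d + 1) → F := fun j =>
    (√2)⁻¹ • (EuclideanSpace.single j (1 : ℝ) - ((d : ℝ) + 1)⁻¹ • one)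
  have hone_sum : ∑ j, EuclideanSpace.single j (1 : ℝ) = one := by
    ext k
    simp [one, PiLp.single_apply]
  have hu : ∀ j, u j ∈ (ℝ ∙ one)ᗮ := by
    intro j
    rw [Submodule.mem_orthogonal_singleton_iff_inner_right]
    simp only [u]
    rw [inner_smul_right, inner_sub_right, inner_smul_right]
    have h1 : inner ℝ one (EuclideanSpace.single j (1 : ℝ)) = 1 := by
      rw [EuclideanSpace.inner_single_right]
      simp [one]
    have h2 : inner ℝ one one = (d : ℝ) + 1 := by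
      rw [real_inner_self_eq_norm_sq, EuclideanSpace.norm_sq_eq]
      simp [one]
    rw [h1, h2, inv_mul_cancel₀ (by positivity), sub_self, mul_zero]
  refine ⟨fun j => e ⟨u j, hu j⟩, ?_, ?_⟩
  · rw [← map_sum]
    have : ∑ j, (⟨u j, hu j⟩ : (ℝ ∙ one)ᗮ) = 0 := by
      apply Subtype.ext
      rw [Submodule.coe_sum]
      show ∑ j, u j = 0
      simp only [u]
      rw [← Finset.smul_sum, Finset.sum_sub_distrib, hone_sum, Finset.sum_const,
        Finset.card_univ, Fintype.card_fin, ← Nat.cast_smul_eq_nsmul ℝ, smul_smul]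
      push_cast
      rw [mul_inv_cancel₀ (by positivity), one_smul, sub_self, smul_zero]
    rw [this, map_zero]
  · intro i j hij
    rw [← map_sub, e.norm_map]
    show ‖u i - u j‖ = 1
    have h1 : u i - u j = (√2)⁻¹ • (EuclideanSpace.single i (1 : ℝ) -
        EuclideanSpace.single j (1 : ℝ)) := by
      simp only [u]
      rw [← smul_sub]
      congr 1
      abel
    have h2 : ‖EuclideanSpace.single i (1 : ℝ) - EuclideanSpace.single j (1 : ℝ)‖ ^ 2 = 2 := by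
      rw [norm_sub_sq_real, EuclideanSpace.inner_single_left]
      simp [hij]
      norm_num
    have h3 : ‖EuclideanSpace.single i (1 : ℝ) - EuclideanSpace.single j (1 : ℝ)‖ = √2 := by
      rw [← h2, Real.sqrt_sq (norm_nonneg _)]
    rw [h1, norm_smul, h3, norm_inv, Real.norm_eq_abs, abs_of_nonneg (Real.sqrt_nonneg _)]
    exact inv_mul_cancel₀ (by positivity)

variable {d : ℕ} {w : Fin (d + 1) → E d}

theorem IsReg.add_ge (h : IsReg w) (hd : 1 ≤ d) {x y : E d} {i : Fin (d + 1)}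
    (hxi : ∀ j, ⟪x, w j⟫ ≤ ⟪x, w i⟫) (hyi : ∀ j, ⟪y, w j⟫ ≤ ⟪y, w i⟫) :
    2 / ((d : ℝ) + 2) * (‖x‖ ^ 2 + ‖y‖ ^ 2) ≤ ‖x + y‖ ^ 2 := by
  classical
  set g : Fin (d + 1) → ℝ := fun j => ⟪x, w i⟫ - ⟪x, w j⟫ with hg
  set k : Fin (d + 1) → ℝ := fun j => ⟪y, w i⟫ - ⟪y, w j⟫ with hk
  have hN : (0 : ℝ) < (d : ℝ) + 1 := by positivity
  have hexp : ∀ z : E d, ‖z‖ ^ 2 = 2 * (∑ j, (⟪z, w i⟫ - ⟪z, w j⟫) ^ 2 -
      (∑ j, (⟪z, w i⟫ - ⟪z, w j⟫)) ^ 2 / ((d : ℝ) + 1)) := by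
    intro z
    have e1 : ∑ j, (⟪z, w i⟫ - ⟪z, w j⟫) = ((d : ℝ) + 1) * ⟪z, w i⟫ := by
      rw [Finset.sum_sub_distrib, h.sum_inner, Finset.sum_const, Finset.card_univ,
        Fintype.card_fin, nsmul_eq_mul]
      push_cast; ring
    have e2 : ∑ j, (⟪z, w i⟫ - ⟪z, w j⟫) ^ 2 =
        ((d : ℝ) + 1) * ⟪z, w i⟫ ^ 2 + ∑ j, ⟪z, w j⟫ ^ 2 := by
      have e3 : ∀ j ∈ (Finset.univ : Finset (Fin (d + 1))), (⟪z, w i⟫ - ⟪z, w j⟫) ^ 2 =
          ⟪z, w i⟫ ^ 2 - 2 * ⟪z, w i⟫ * ⟪z, w j⟫ + ⟪z, w j⟫ ^ 2 := fun j _ => by ring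
      rw [Finset.sum_congr rfl e3, Finset.sum_add_distrib, Finset.sum_sub_distrib,
        ← Finset.mul_sum, h.sum_inner, Finset.sum_const, Finset.card_univ,
        Fintype.card_fin, nsmul_eq_mul]
      push_cast; ring
    rw [e1, e2, h.norm_eq z]
    field_simp
    ring
  have hx := hexp x
  have hy := hexp y
  have hxy := hexp (x + y)
  have e4 : ∑ j, (⟪x + y, w i⟫ - ⟪x + y, w j⟫) = ∑ j, g j + ∑ j, k j := by
    rw [← Finset.sum_add_distrib]
    refine Finset.sum_congr rfl fun j _ => ?_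
    rw [inner_add_left, inner_add_left]
    simp only [hg, hk]
    ring
  have e5 : ∑ j, (⟪x + y, w i⟫ - ⟪x + y, w j⟫) ^ 2 = ∑ j, (g j + k j) ^ 2 := by
    refine Finset.sum_congr rfl fun j _ => ?_
    rw [inner_add_left, inner_add_left]
    simp only [hg, hk]
    ring
  rw [e4, e5] at hxy
  have e6 : ∑ j, (g j + k j) ^ 2 = ∑ j, g j ^ 2 + ∑ j, k j ^ 2 + 2 * ∑ j, g j * k j := by
    rw [Finset.mul_sum, ← Finset.sum_add_distrib, ← Finset.sum_add_distrib]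
    exact Finset.sum_congr rfl fun j _ => by ring
  have hgk : 0 ≤ ∑ j, g j * k j := Finset.sum_nonneg fun j _ =>
    mul_nonneg (by simp only [hg]; linarith [hxi j]) (by simp only [hk]; linarith [hyi j])
  have hgi : g i = 0 := sub_self _
  have hki : k i = 0 := sub_self _
  have hcs : (∑ j, g j + ∑ j, k j) ^ 2 ≤ d * ∑ j, (g j + k j) ^ 2 := by
    have e7 : ∑ j, g j + ∑ j, k j = ∑ j ∈ Finset.univ.erase i, (g j + k j) := by
      rw [← Finset.sum_add_distrib, ← Finset.add_sum_erase _ _ (Finset.mem_univ i), hgi, hki,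
        add_zero, zero_add]
    have e8 : ∑ j, (g j + k j) ^ 2 = ∑ j ∈ Finset.univ.erase i, (g j + k j) ^ 2 := by
      rw [← Finset.add_sum_erase _ _ (Finset.mem_univ i), hgi, hki]
      ring
    rw [e7, e8]
    have := sq_sum_le_card_mul_sum_sq (s := Finset.univ.erase i) (f := fun j => g j + k j)
    rw [Finset.card_erase_of_mem (Finset.mem_univ i), Finset.card_univ, Fintype.card_fin] at this
    simpa using this
  set G := ∑ j, g j with hG
  set K := ∑ j, k j with hK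
  set P := ∑ j, g j ^ 2 with hP
  set Q := ∑ j, k j ^ 2 with hQ
  set M := ∑ j, g j * k j with hM
  have hx' : ‖x‖ ^ 2 = 2 * (P - G ^ 2 / ((d : ℝ) + 1)) := hx
  have hy' : ‖y‖ ^ 2 = 2 * (Q - K ^ 2 / ((d : ℝ) + 1)) := hy
  rw [e6] at hcs hxy
  rw [hx', hy', hxy]
  have hd0 : (0 : ℝ) < d := by exact_mod_cast hd
  have h2 : (0 : ℝ) < (d : ℝ) + 2 := by positivity
  rw [← sub_nonneg]
  have e9 : 2 * (P + Q + 2 * M - (G + K) ^ 2 / ((d : ℝ) + 1)) - 2 / ((d : ℝ) + 2) *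
      (2 * (P - G ^ 2 / ((d : ℝ) + 1)) + 2 * (Q - K ^ 2 / ((d : ℝ) + 1))) =
      (2 * ((d : ℝ) + 1) * (d * (P + Q + 2 * M) - (G + K) ^ 2) + 2 * (G - K) ^ 2
        + 8 * ((d : ℝ) + 1) * M) / (((d : ℝ) + 1) * ((d : ℝ) + 2)) := by
    field_simp
    ring
  rw [e9]
  apply div_nonneg _ (by positivity)
  have h3 : 0 ≤ ((d : ℝ) + 1) * (d * (P + Q + 2 * M) - (G + K) ^ 2) :=
    mul_nonneg hN.le (by linarith)
  have h4 : 0 ≤ ((d : ℝ) + 1) * M := mul_nonneg hN.le hgk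
  nlinarith [sq_nonneg (G - K)]

/-- **sets in a small ball**. -/
theorem cover_of_ball (hd : 1 ≤ d) (Y : Set (E d))
    (hpos : 0 < Metric.diam Y) (c : E d) (r : ℝ) (hYr : Y ⊆ closedBall c r)
    (hr : r ^ 2 < (d + 2) / (4 * (d + 1)) * Metric.diam Y ^ 2) : IsSmallerCover Y (d + 1) := by
  obtain ⟨w, hw⟩ := exists_isReg d
  set D := Metric.diam Y with hD
  have hN : (0 : ℝ) < (d : ℝ) + 1 := by positivity
  have hN2 : (0 : ℝ) < (d : ℝ) + 2 := by positivity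
  set C : ℝ := √(4 * ((d : ℝ) + 1) / (d + 2) * r ^ 2) with hC
  have hCD : C < D := by
    rw [hC, Real.sqrt_lt' hpos]
    have h1 : 4 * ((d : ℝ) + 1) / (d + 2) * r ^ 2 <
        4 * ((d : ℝ) + 1) / (d + 2) * ((d + 2) / (4 * (d + 1)) * D ^ 2) :=
      mul_lt_mul_of_pos_left hr (by positivity)
    have h2 : 4 * ((d : ℝ) + 1) / (d + 2) * ((d + 2) / (4 * (d + 1)) * D ^ 2) = D ^ 2 := by
      field_simp
    rwa [h2] at h1
  refine ⟨fun i => {x | x ∈ Y ∧ ∀ j, ⟪x - c, w j⟫ ≤ ⟪x - c, w i⟫}, ?_, ?_⟩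
  · ext x
    simp only [mem_iUnion, mem_setOf_eq]
    constructor
    · rintro ⟨i, hx, -⟩
      exact hx
    · intro hx
      obtain ⟨i, hi⟩ := Finite.exists_max (fun j => ⟪x - c, w j⟫)
      exact ⟨i, hx, hi⟩
  · intro i
    refine lt_of_le_of_lt (Metric.diam_le_of_forall_dist_le (Real.sqrt_nonneg _) ?_) hCD
    rintro x ⟨hx, hxi⟩ y ⟨hy, hyi⟩
    apply Real.le_sqrt_of_sq_le
    have h1 := hw.add_ge hd hxi hyi
    have h2 := parallelogram_law_with_norm ℝ (x - c) (y - c)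
    have h3 : x - c - (y - c) = x - y := by abel
    rw [h3] at h2
    have hx2 : ‖x - c‖ ≤ r := by
      rw [← dist_eq_norm]; exact hYr hx
    have hy2 : ‖y - c‖ ≤ r := by
      rw [← dist_eq_norm]; exact hYr hy
    have hx3 := pow_le_pow_left₀ (norm_nonneg _) hx2 2
    have hy3 := pow_le_pow_left₀ (norm_nonneg _) hy2 2
    rw [dist_eq_norm]
    have h4 : ‖x - y‖ ^ 2 ≤ (2 - 2 / ((d : ℝ) + 2)) * (‖x - c‖ ^ 2 + ‖y - c‖ ^ 2) := by
      nlinarith
    have h5 : (0 : ℝ) ≤ 2 - 2 / ((d : ℝ) + 2) := by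
      rw [sub_nonneg, div_le_iff₀ hN2]
      nlinarith [(Nat.cast_nonneg d : (0 : ℝ) ≤ d)]
    have h6 : (2 - 2 / ((d : ℝ) + 2)) * (‖x - c‖ ^ 2 + ‖y - c‖ ^ 2) ≤
        (2 - 2 / ((d : ℝ) + 2)) * (r ^ 2 + r ^ 2) :=
      mul_le_mul_of_nonneg_left (by linarith) h5
    have h7 : (2 - 2 / ((d : ℝ) + 2)) * (r ^ 2 + r ^ 2) = 4 * ((d : ℝ) + 1) / (d + 2) * r ^ 2 := by
      field_simp
      ring
    linarith

end Vale.Agent.P052.J373
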