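import Vale.Agent.P052.R4.H373.Simplex

/-!
The cells of the Reuleaux simplex have diameter less than one in dimension at most 6.
-/

namespace Vale.Agent.P052.J373

open scoped RealInnerProductSpace

theorem tangent {c A X u : ℝ} (hc : 0 < c) (hu : 0 ≤ u) (h : X ≤ (c - X) * u) :
    X ≤ c - 2 * A + (1 + u) * A ^ 2 / c := by
  have h1 : c ≤ (c - X) * (1 + u) := by nlinarith
  have hB : 0 < 1 + u := by linarith
  have hP : 0 < c - X := by
    by_contra hcon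
    have h2 : (c - X) * (1 + u) ≤ 0 := mul_nonpos_of_nonpos_of_nonneg (not_lt.mp hcon) hB.le
    linarith
  have h5 : X * c ≤ (c - 2 * A) * c + (1 + u) * A ^ 2 := by
    by_contra hcon
    push Not at hcon
    have h6 : (c - X) * ((c - 2 * A) * c + (1 + u) * A ^ 2 - X * c) < 0 :=
      mul_neg_of_pos_of_neg hP (by linarith)
    have h7 : 0 ≤ ((c - X) * (1 + u) - c) * A ^ 2 := mul_nonneg (by linarith) (sq_nonneg A)
    have h8 : 0 ≤ c * (c - X - A) ^ 2 := mul_nonneg hc.le (sq_nonneg _)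
    nlinarith
  have h9 : c - 2 * A + (1 + u) * A ^ 2 / c - X =
      ((c - 2 * A) * c + (1 + u) * A ^ 2 - X * c) / c := by
    field_simp
  have h10 : 0 ≤ c - 2 * A + (1 + u) * A ^ 2 / c - X := by
    rw [h9]
    exact div_nonneg (by linarith) hc.le
  linarith

/-- the numerical bound. -/
theorem bound {c r m A X Y s t N : ℝ} (hc : 0 < c) (hr : 0 < r) (hm : 0 < m)
    (hs : 0 ≤ s) (ht : 0 ≤ t) (hX : X ≤ (c - X) * (m * s)) (hY : Y ≤ (c - Y) * (m * t))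
    (hN : N * r ≤ (2 * X + 2 * Y) * r - (s + t) ^ 2) :
    N ≤ 4 * c - 8 * A + 4 * A ^ 2 / c + (A ^ 2 * m / c) ^ 2 * r := by
  have h1 := tangent (A := A) hc (mul_nonneg hm.le hs) hX
  have h2 := tangent (A := A) hc (mul_nonneg hm.le ht) hY
  have h3 : N * r ≤ (4 * c - 8 * A + 4 * A ^ 2 / c + (A ^ 2 * m / c) ^ 2 * r) * r := by
    have h4 : (2 * X + 2 * Y) * r ≤ (4 * c - 8 * A + 4 * A ^ 2 / c
        + 2 * (A ^ 2 * m / c) * (s + t)) * r := by
      apply mul_le_mul_of_nonneg_right _ hr.le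
      have h5 : (1 + m * s) * A ^ 2 / c = A ^ 2 / c + (A ^ 2 * m / c) * s := by ring
      have h6 : (1 + m * t) * A ^ 2 / c = A ^ 2 / c + (A ^ 2 * m / c) * t := by ring
      rw [h5] at h1
      rw [h6] at h2
      have h7 : 4 * A ^ 2 / c = 4 * (A ^ 2 / c) := by ring
      rw [h7]
      linarith
    have h8 := sq_nonneg ((A ^ 2 * m / c) * r - (s + t))
    nlinarith
  exact le_of_mul_le_mul_right h3 hr

variable {d : ℕ} {w : Fin (d + 1) → E d}

theorem IsReg.nonneg (h : IsReg w) {x : E d} {i : Fin (d + 1)}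
    (hi : ∀ j, ⟪x, w j⟫ ≤ ⟪x, w i⟫) : 0 ≤ ⟪x, w i⟫ := by
  have h1 : ∑ j : Fin (d + 1), ⟪x, w j⟫ ≤ ∑ _j : Fin (d + 1), ⟪x, w i⟫ :=
    Finset.sum_le_sum fun j _ => hi j
  rw [h.sum_inner, Finset.sum_const, nsmul_eq_mul, Finset.card_univ, Fintype.card_fin] at h1
  have h2 : (0 : ℝ) < ((d + 1 : ℕ) : ℝ) := by positivity
  by_contra hcon
  have := mul_neg_of_pos_of_neg h2 (not_le.mp hcon)
  linarith

/-- **cells are small**. -/
theorem IsReg.cell_lt (h : IsReg w) (hd1 : 2 ≤ d) (hd : d ≤ 6) {x y : E d} {i : Fin (d + 1)}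
    (hx : ∀ j, ‖x - w j‖ ≤ 1) (hy : ∀ j, ‖y - w j‖ ≤ 1)
    (hxi : ∀ j, ⟪x, w j⟫ ≤ ⟪x, w i⟫) (hyi : ∀ j, ⟪y, w j⟫ ≤ ⟪y, w i⟫) :
    ‖x - y‖ < 1 := by
  have a1 := h.cell hx hxi
  have a2 := h.cell hy hyi
  have a3 := h.pair x y i
  have s1 := h.nonneg hxi
  have s2 := h.nonneg hyi
  have hc : (0 : ℝ) < (d + 2) / (2 * (d + 1)) := by positivity
  have hr : (0 : ℝ) < d / (2 * (d + 1)) := by
    have : (0 : ℝ) < d := by exact_mod_cast (by omega : 0 < d)
    positivity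
  have hm : (0 : ℝ) < (d : ℝ) + 1 := by positivity
  have key : ∀ A : ℝ, ‖x - y‖ ^ 2 ≤ _ := fun A => bound (A := A) hc hr hm s1 s2 a1 a2 a3
  have h1 : ‖x - y‖ ^ 2 < 1 := by
    interval_cases d
    · refine lt_of_le_of_lt (key (7 / 15)) (by norm_num)
    · refine lt_of_le_of_lt (key (3 / 8)) (by norm_num)
    · refine lt_of_le_of_lt (key (8 / 25)) (by norm_num)
    · refine lt_of_le_of_lt (key (2 / 7)) (by norm_num)
    · refine lt_of_le_of_lt (key (9 / 35)) (by norm_num)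
  by_contra hcon
  have h2 : 1 ≤ ‖x - y‖ := not_lt.mp hcon
  nlinarith

end Vale.Agent.P052.J373
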