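import Vale.Agent.P052.R4.H373.Stable

/-!
The cells of the Reuleaux simplex have diameter less than one in dimension 7.
The inequality is the one of helper958 (barycentric coordinates).
-/

namespace Vale.Agent.P052.J373

open scoped RealInnerProductSpace

/-- the final numerical contradiction. -/
theorem num_false {m m' y z : ℝ} (hm0 : 0 ≤ m) (hm'0 : 0 ≤ m') (hm1 : m ≤ 1) (hm'1 : m' ≤ 1)
    (hy : 1 ≤ y) (hz : 1 ≤ z) (hA : 1 ≤ 8 * (m * m')) (hB : y + z ≤ 8 * ((1 - m) * (1 - m')))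
    (hC : 3 ≤ (y - 1) ^ 2 + (z - 1) ^ 2 + 8 * (1 - m - m') ^ 2) : False := by
  set S := m + m' with hS
  have hP : m * m' ≤ S ^ 2 / 4 := by nlinarith [sq_nonneg (m - m')]
  have hS1 : 1 / 2 ≤ S ^ 2 := by linarith
  have hS0 : 0 ≤ S := by linarith
  have hS2 : 7 / 10 ≤ S := by nlinarith
  have hB' : y + z ≤ 8 * (1 - S / 2) ^ 2 := by nlinarith
  have hS3 : S ≤ 1 := by
    have h1 : 2 ≤ 8 * (1 - S / 2) ^ 2 := by linarith
    have h2 : S ≤ 2 := by linarith
    nlinarith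
  have hyz : (y - 1) ^ 2 + (z - 1) ^ 2 ≤ (y + z - 2) ^ 2 := by
    nlinarith [mul_nonneg (sub_nonneg.mpr hy) (sub_nonneg.mpr hz)]
  have h3 : y + z - 2 ≤ 138 / 100 := by nlinarith
  have h4 : (y + z - 2) ^ 2 ≤ (138 / 100) ^ 2 := pow_le_pow_left₀ (by linarith) h3 2
  have h5 : (1 - m - m') ^ 2 ≤ (3 / 10) ^ 2 := by
    have h6 : 1 - m - m' = 1 - S := by rw [hS]; ring
    rw [h6]
    exact pow_le_pow_left₀ (by linarith) (by linarith) 2
  nlinarith

/-- shift of the barycentric coordinates. -/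
theorem shift {β : Fin 8 → ℝ} (h1 : ∑ j, β j = 1) (hU : ∀ j, ∑ k, β k ^ 2 ≤ 1 + 2 * β j)
    {i : Fin 8} (hi : ∀ j, β j ≤ β i) : ∃ p : ℝ, 0 ≤ p ∧ (∀ j, 0 ≤ β j + p) ∧
      ∑ j, (β j + p) ^ 2 ≤ 1 + 8 * p ^ 2 ∧ β i + p ≤ 1 ∧ p < β i + p := by
  obtain ⟨a, ha⟩ := Finite.exists_min β
  have hpos : 1 / 8 ≤ β i := by
    have h2 : ∑ j, β j ≤ ∑ _j : Fin 8, β i := Finset.sum_le_sum fun j _ => hi j
    rw [h1, Finset.sum_const, Finset.card_univ, Fintype.card_fin, nsmul_eq_mul] at h2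
    push_cast at h2
    linarith
  have hexp : ∀ p : ℝ, ∑ j, (β j + p) ^ 2 = ∑ j, β j ^ 2 + 2 * p + 8 * p ^ 2 := by
    intro p
    have h2 : ∀ j ∈ (Finset.univ : Finset (Fin 8)), (β j + p) ^ 2 =
        β j ^ 2 + 2 * p * β j + p ^ 2 := fun j _ => by ring
    rw [Finset.sum_congr rfl h2, Finset.sum_add_distrib, Finset.sum_add_distrib,
      ← Finset.mul_sum, h1, Finset.sum_const, Finset.card_univ, Fintype.card_fin, nsmul_eq_mul]
    push_cast
    ring
  rcases le_or_gt 0 (β a) with h0 | h0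
  · have hle1 : ∀ j, β j ≤ 1 := by
      intro j
      have := Finset.single_le_sum (f := β) (fun k _ => h0.trans (ha k)) (Finset.mem_univ j)
      rwa [h1] at this
    refine ⟨0, le_rfl, fun j => by rw [add_zero]; exact h0.trans (ha j), ?_, ?_, ?_⟩
    · have h2 : ∑ j, (β j + 0) ^ 2 ≤ ∑ j, β j := by
        refine Finset.sum_le_sum fun j _ => ?_
        have h3 := h0.trans (ha j)
        have h4 := hle1 j
        nlinarith
      rw [h1] at h2
      linarith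
    · rw [add_zero]; exact hle1 i
    · linarith
  · set p : ℝ := -β a with hp
    have hsq := hU a
    have h2 : β i ^ 2 ≤ ∑ k, β k ^ 2 :=
      Finset.single_le_sum (f := fun k => β k ^ 2) (fun k _ => sq_nonneg _) (Finset.mem_univ i)
    refine ⟨p, by linarith, fun j => by linarith [ha j], ?_, ?_, by linarith⟩
    · rw [hexp]
      linarith
    · have h3 : β i ^ 2 ≤ 1 - 2 * p := by linarith
      by_contra hcon
      push Not at hcon
      nlinarith [sq_nonneg (β i)]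

theorem num8 {β γ : Fin 8 → ℝ} (h1 : ∑ j, β j = 1) (h2 : ∑ j, γ j = 1)
    (hU : ∀ j, ∑ k, β k ^ 2 ≤ 1 + 2 * β j) (hV : ∀ j, ∑ k, γ k ^ 2 ≤ 1 + 2 * γ j)
    {i : Fin 8} (hi : ∀ j, β j ≤ β i) (hi' : ∀ j, γ j ≤ γ i) :
    ∑ j, (β j - γ j) ^ 2 < 2 := by
  obtain ⟨p, hp0, hb0, hb2, hbi, hbp⟩ := shift h1 hU hi
  obtain ⟨q, hq0, hc0, hc2, hci, hcq⟩ := shift h2 hV hi'
  by_contra hcon
  push Not at hcon
  set b : Fin 8 → ℝ := fun j => β j + p with hb
  set c : Fin 8 → ℝ := fun j => γ j + q with hc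
  have hbs : ∑ j, b j = 1 + 8 * p := by
    rw [hb, Finset.sum_add_distrib, h1, Finset.sum_const, Finset.card_univ, Fintype.card_fin,
      nsmul_eq_mul]
    push_cast; ring
  have hcs : ∑ j, c j = 1 + 8 * q := by
    rw [hc, Finset.sum_add_distrib, h2, Finset.sum_const, Finset.card_univ, Fintype.card_fin,
      nsmul_eq_mul]
    push_cast; ring
  have hbc : ∑ j, (β j - γ j) ^ 2 = ∑ j, b j ^ 2 + ∑ j, c j ^ 2 - 2 * ∑ j, b j * c j
      - 8 * (p - q) ^ 2 := by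
    have e : ∀ j ∈ (Finset.univ : Finset (Fin 8)), (β j - γ j) ^ 2 =
        b j ^ 2 + c j ^ 2 - 2 * (b j * c j) - 2 * (p - q) * (b j - c j) + (p - q) ^ 2 := by
      intro j _
      show _ = (β j + p) ^ 2 + (γ j + q) ^ 2 - 2 * ((β j + p) * (γ j + q)) -
        2 * (p - q) * ((β j + p) - (γ j + q)) + (p - q) ^ 2
      ring
    rw [Finset.sum_congr rfl e, Finset.sum_add_distrib, Finset.sum_sub_distrib,
      Finset.sum_sub_distrib, Finset.sum_add_distrib, ← Finset.mul_sum, ← Finset.mul_sum,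
      Finset.sum_sub_distrib, hbs, hcs, Finset.sum_const, Finset.card_univ, Fintype.card_fin,
      nsmul_eq_mul]
    push_cast; ring
  have hT : ∑ j, b j * c j ≤ 8 * (p * q) := by
    have e1 : ∑ j, b j ^ 2 ≤ 1 + 8 * p ^ 2 := hb2
    have e2 : ∑ j, c j ^ 2 ≤ 1 + 8 * q ^ 2 := hc2
    nlinarith
  set T := ∑ j, b j * c j with hTd
  set u := b i with hu
  set v := c i with hv
  have hu0 : 0 < u := lt_of_le_of_lt hp0 hbp
  have hv0 : 0 < v := lt_of_le_of_lt hq0 hcq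
  have hE0 : u * v ≤ T :=
    Finset.single_le_sum (f := fun j => b j * c j) (fun j _ => mul_nonneg (hb0 j) (hc0 j))
      (Finset.mem_univ i)
  have hE1 : 0 ≤ 8 * (u * v) - u * (1 + 8 * q) - v * (1 + 8 * p) + T := by
    have e : 0 ≤ ∑ j, (u - b j) * (v - c j) := by
      refine Finset.sum_nonneg fun j _ => mul_nonneg ?_ ?_
      · show 0 ≤ (β i + p) - (β j + p)
        linarith [hi j]
      · show 0 ≤ (γ i + q) - (γ j + q)
        linarith [hi' j]
    have e2 : ∑ j, (u - b j) * (v - c j) = 8 * (u * v) - u * ∑ j, c j - v * ∑ j, b j + T := by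
      have e3 : ∀ j ∈ (Finset.univ : Finset (Fin 8)), (u - b j) * (v - c j) =
          u * v - u * c j - v * b j + b j * c j := fun j _ => by ring
      rw [hTd, Finset.sum_congr rfl e3]
      simp only [Finset.sum_add_distrib, Finset.sum_sub_distrib, ← Finset.mul_sum,
        Finset.sum_const, Finset.card_univ, Fintype.card_fin, nsmul_eq_mul]
      push_cast; ring
    rw [e2, hbs, hcs] at e
    exact e
  have hE2 : (u * v) ^ 2 ≤ v ^ 2 * (1 + 8 * p ^ 2) + u ^ 2 * (1 + 8 * q ^ 2)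
      + 8 * (u * v) ^ 2 + 2 * (u * v) * T - 2 * (u * v) * v * (1 + 8 * p)
      - 2 * (u * v) * u * (1 + 8 * q) := by
    have e : (u * v + v * u - u * v) ^ 2 ≤ ∑ j, (b j * v + c j * u - u * v) ^ 2 :=
      Finset.single_le_sum (f := fun j => (b j * v + c j * u - u * v) ^ 2)
        (fun j _ => sq_nonneg _) (Finset.mem_univ i)
    have e2 : ∑ j, (b j * v + c j * u - u * v) ^ 2 = v ^ 2 * ∑ j, b j ^ 2 +
        u ^ 2 * ∑ j, c j ^ 2 + 8 * (u * v) ^ 2 + 2 * (u * v) * T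
        - 2 * (u * v) * v * ∑ j, b j - 2 * (u * v) * u * ∑ j, c j := by
      have e3 : ∀ j ∈ (Finset.univ : Finset (Fin 8)), (b j * v + c j * u - u * v) ^ 2 =
          v ^ 2 * b j ^ 2 + u ^ 2 * c j ^ 2 + (u * v) ^ 2 + 2 * (u * v) * (b j * c j)
          - 2 * (u * v) * v * b j - 2 * (u * v) * u * c j := fun j _ => by ring
      rw [hTd, Finset.sum_congr rfl e3]
      simp only [Finset.sum_add_distrib, Finset.sum_sub_distrib, ← Finset.mul_sum,
        Finset.sum_const, Finset.card_univ, Fintype.card_fin, nsmul_eq_mul]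
      push_cast; ring
    rw [e2, hbs, hcs] at e
    have e4 : v ^ 2 * ∑ j, b j ^ 2 ≤ v ^ 2 * (1 + 8 * p ^ 2) :=
      mul_le_mul_of_nonneg_left hb2 (sq_nonneg v)
    have e5 : u ^ 2 * ∑ j, c j ^ 2 ≤ u ^ 2 * (1 + 8 * q ^ 2) :=
      mul_le_mul_of_nonneg_left hc2 (sq_nonneg u)
    have e6 : (u * v + v * u - u * v) ^ 2 = (u * v) ^ 2 := by ring
    rw [e6] at e
    linarith
  have huv : 0 < u * v := mul_pos hu0 hv0
  have hTpq : T / (u * v) ≤ 8 * (p / u * (q / v)) := by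
    rw [div_le_iff₀ huv]
    have : 8 * (p / u * (q / v)) * (u * v) = 8 * (p * q) := by field_simp
    rw [this]
    exact hT
  have hT1 : 1 ≤ T / (u * v) := by
    rw [le_div_iff₀ huv]
    linarith
  refine num_false (m := p / u) (m' := q / v) (y := 1 / u) (z := 1 / v) (by positivity)
    (by positivity) ?_ ?_ ?_ ?_ (by linarith) ?_ ?_
  · rw [div_le_one hu0]; exact hbp.le
  · rw [div_le_one hv0]; exact hcq.le
  · rw [le_div_iff₀ hu0, one_mul]; exact hbi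
  · rw [le_div_iff₀ hv0, one_mul]; exact hci
  · have e : 0 ≤ (8 * (u * v) - u * (1 + 8 * q) - v * (1 + 8 * p) + T) / (u * v) :=
      div_nonneg hE1 huv.le
    have e2 : (8 * (u * v) - u * (1 + 8 * q) - v * (1 + 8 * p) + T) / (u * v) =
        8 - (1 / v + 8 * (q / v)) - (1 / u + 8 * (p / u)) + T / (u * v) := by
      field_simp
    rw [e2] at e
    nlinarith
  · have e : 0 ≤ (v ^ 2 * (1 + 8 * p ^ 2) + u ^ 2 * (1 + 8 * q ^ 2)
      + 8 * (u * v) ^ 2 + 2 * (u * v) * T - 2 * (u * v) * v * (1 + 8 * p)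
      - 2 * (u * v) * u * (1 + 8 * q) - (u * v) ^ 2) / (u * v) ^ 2 :=
      div_nonneg (by linarith) (sq_nonneg _)
    have e2 : (v ^ 2 * (1 + 8 * p ^ 2) + u ^ 2 * (1 + 8 * q ^ 2)
      + 8 * (u * v) ^ 2 + 2 * (u * v) * T - 2 * (u * v) * v * (1 + 8 * p)
      - 2 * (u * v) * u * (1 + 8 * q) - (u * v) ^ 2) / (u * v) ^ 2 =
        (1 / u) ^ 2 + 8 * (p / u) ^ 2 + (1 / v) ^ 2 + 8 * (q / v) ^ 2 + 8
        + 2 * (T / (u * v)) - 2 * (1 / u + 8 * (p / u)) - 2 * (1 / v + 8 * (q / v)) - 1 := by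
      field_simp
      ring
    rw [e2] at e
    nlinarith

/-- **dimension seven**. -/
theorem cellLt_seven : CellLt 7 := by
  intro w hw i x y hx hy hxi hyi
  have hkey : ∀ z : E 7, (∀ j, ‖z - w j‖ ≤ 1) → ∀ j,
      ∑ k, (1 / 8 + 2 * ⟪z, w k⟫) ^ 2 ≤ 1 + 2 * (1 / 8 + 2 * ⟪z, w j⟫) := by
    intro z hz j
    have h1 := norm_sub_sq_real z (w j)
    have h2 := hw.norm_sq j
    have h3 : ‖z - w j‖ ^ 2 ≤ 1 := by
      have := pow_le_pow_left₀ (norm_nonneg _) (hz j) 2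
      simpa using this
    have h4 := hw.norm_eq z
    have h5 : ∑ k, (1 / 8 + 2 * ⟪z, w k⟫) ^ 2 = 1 / 8 + 2 * ‖z‖ ^ 2 := by
      have e : ∀ k ∈ (Finset.univ : Finset (Fin 8)), (1 / 8 + 2 * ⟪z, w k⟫) ^ 2 =
          1 / 64 + 1 / 2 * ⟪z, w k⟫ + 4 * ⟪z, w k⟫ ^ 2 := fun k _ => by ring
      rw [Finset.sum_congr rfl e, Finset.sum_add_distrib, Finset.sum_add_distrib,
        ← Finset.mul_sum, ← Finset.mul_sum, hw.sum_inner z, Finset.sum_const,
        Finset.card_univ, Fintype.card_fin, nsmul_eq_mul, h4]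
      push_cast; ring
    rw [h5]
    push_cast at h2
    linarith
  have hs : ∀ z : E 7, ∑ k, (1 / 8 + 2 * ⟪z, w k⟫) = 1 := by
    intro z
    rw [Finset.sum_add_distrib, ← Finset.mul_sum, hw.sum_inner z, Finset.sum_const,
      Finset.card_univ, Fintype.card_fin, nsmul_eq_mul]
    push_cast; ring
  have h := num8 (β := fun k => 1 / 8 + 2 * ⟪x, w k⟫) (γ := fun k => 1 / 8 + 2 * ⟪y, w k⟫)
    (hs x) (hs y) (hkey x hx) (hkey y hy) (i := i) (fun j => by linarith [hxi j])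
    (fun j => by linarith [hyi j])
  have h6 : ∑ j, ((1 / 8 + 2 * ⟪x, w j⟫) - (1 / 8 + 2 * ⟪y, w j⟫)) ^ 2 = 2 * ‖x - y‖ ^ 2 := by
    rw [hw.norm_eq (x - y), ← mul_assoc, Finset.mul_sum]
    refine Finset.sum_congr rfl fun j _ => ?_
    rw [inner_sub_left]
    ring
  rw [h6] at h
  by_contra hcon
  have h7 : 1 ≤ ‖x - y‖ := not_lt.mp hcon
  nlinarith

theorem cellLt {d : ℕ} (hd1 : 2 ≤ d) (hd : d ≤ 7) : CellLt d := by
  rcases Nat.lt_or_ge d 7 with h | h
  · exact cellLt_six hd1 (by omega)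
  · obtain rfl : d = 7 := by omega
    exact cellLt_seven

end Vale.Agent.P052.J373
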