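import Vale.Agent.P052.R4.H373.Cover

/-!
Sets whose circumradius is close to the bound of Jung's theorem.
-/

namespace Vale.Agent.P052.J373

open Metric Set
open scoped RealInnerProductSpace

variable {d : ℕ}

/-- `d + 1` points of mutual distance at most one which lie in no ball of radius slightly smaller
than the radius of Jung's theorem form a nearly regular simplex. -/
theorem near (v : Fin (d + 1) → E d) (hv : ∀ j k, dist (v j) (v k) ≤ 1) {τ r : ℝ}
    (hτ1 : 8 * ((d : ℝ) + 1) ^ 2 * τ ≤ 1) (hr0 : 0 ≤ r)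
    (hr : d / (2 * ((d : ℝ) + 1)) - τ ≤ r ^ 2) (hno : ∀ c, ¬ ∀ j, ‖v j - c‖ ≤ r) :
    ∀ j k, j ≠ k → 1 - 8 * ((d : ℝ) + 1) ^ 2 * τ ≤ dist (v j) (v k) := by
  classical
  intro a b hab
  obtain ⟨l, c, hl0, hl1, hc⟩ := exists_ball (Nat.succ_pos d) v
  have hN : (0 : ℝ) < (d : ℝ) + 1 := by positivity
  set G := (∑ j, ∑ k, l j * l k * ‖v j - v k‖ ^ 2) / 2 with hG
  have hGr : r ^ 2 < G := by
    by_contra hcon
    apply hno c
    intro j
    have h1 := (hc j).trans (not_lt.mp hcon)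
    exact le_of_sq_le_sq h1 hr0
  let f : Fin (d + 1) → Fin (d + 1) → ℝ := fun j k => l j * l k * (1 - ‖v j - v k‖ ^ 2)
  have hf0 : ∀ j k, 0 ≤ f j k := by
    intro j k
    have h1 := hv j k
    rw [dist_eq_norm] at h1
    have h2 : ‖v j - v k‖ ^ 2 ≤ 1 := by
      have := pow_le_pow_left₀ (norm_nonneg _) h1 2
      simpa using this
    exact mul_nonneg (mul_nonneg (hl0 j) (hl0 k)) (by linarith)
  have hfs : ∑ j, ∑ k, f j k = 1 - 2 * G := by
    have h1 : ∑ j, ∑ k, f j k =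
        ∑ j, ∑ k, l j * l k - ∑ j, ∑ k, l j * l k * ‖v j - v k‖ ^ 2 := by
      rw [← Finset.sum_sub_distrib]
      refine Finset.sum_congr rfl fun j _ => ?_
      rw [← Finset.sum_sub_distrib]
      refine Finset.sum_congr rfl fun k _ => ?_
      show l j * l k * (1 - ‖v j - v k‖ ^ 2) = _
      ring
    have h2 : ∑ j, ∑ k, l j * l k = 1 := by
      simp only [← Finset.mul_sum, hl1, mul_one]
    rw [h1, h2, hG]
    ring
  have hfjj : ∀ j, f j j = l j ^ 2 := by
    intro j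
    show l j * l j * (1 - ‖v j - v j‖ ^ 2) = _
    rw [sub_self, norm_zero]
    ring
  have hrow : ∀ j ∈ (Finset.univ : Finset (Fin (d + 1))),
      l j ^ 2 + (if j = a then f a b else 0) ≤ ∑ k, f j k := by
    intro j _
    split_ifs with hja
    · subst hja
      rw [← hfjj j, ← Finset.sum_pair hab]
      exact Finset.sum_le_sum_of_subset_of_nonneg (Finset.subset_univ _)
        fun k _ _ => hf0 j k
    · rw [add_zero, ← hfjj j]
      exact Finset.single_le_sum (f := fun k => f j k) (fun k _ => hf0 j k) (Finset.mem_univ j)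
  have hsum := Finset.sum_le_sum hrow
  rw [Finset.sum_add_distrib, Finset.sum_ite_eq' Finset.univ a, if_pos (Finset.mem_univ a),
    hfs] at hsum
  set q : ℝ := 1 / ((d : ℝ) + 1) with hq
  have hq0 : 0 < q := by positivity
  have hqN : q * ((d : ℝ) + 1) = 1 := by
    rw [hq]
    field_simp
  have hsq : ∑ j, (l j - q) ^ 2 = ∑ j, l j ^ 2 - q := by
    have h1 : ∀ j ∈ (Finset.univ : Finset (Fin (d + 1))),
        (l j - q) ^ 2 = l j ^ 2 - 2 * q * l j + q ^ 2 := fun j _ => by ring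
    rw [Finset.sum_congr rfl h1, Finset.sum_add_distrib, Finset.sum_sub_distrib,
      ← Finset.mul_sum, hl1, Finset.sum_const, Finset.card_univ, Fintype.card_fin, nsmul_eq_mul]
    push_cast
    nlinarith
  have hR : (d : ℝ) / (2 * ((d : ℝ) + 1)) = (1 - q) / 2 := by
    rw [hq]
    field_simp
    ring
  rw [hR] at hr
  have hfab : 0 ≤ f a b := hf0 a b
  have htot : ∑ j, (l j - q) ^ 2 + f a b ≤ 2 * τ := by
    rw [hsq]
    linarith
  have hqτ : 2 * τ ≤ (q / 2) ^ 2 := by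
    have h1 : 8 * ((d : ℝ) + 1) ^ 2 * τ * q ^ 2 ≤ 1 * q ^ 2 :=
      mul_le_mul_of_nonneg_right hτ1 (sq_nonneg q)
    have h2 : 8 * ((d : ℝ) + 1) ^ 2 * τ * q ^ 2 = 8 * τ * (q * ((d : ℝ) + 1)) ^ 2 := by ring
    rw [h2, hqN] at h1
    nlinarith
  have hlow : ∀ j, q / 2 ≤ l j := by
    intro j
    have h1 : (l j - q) ^ 2 ≤ ∑ j, (l j - q) ^ 2 :=
      Finset.single_le_sum (f := fun j => (l j - q) ^ 2) (fun k _ => sq_nonneg _)
        (Finset.mem_univ j)
    have h2 : (l j - q) ^ 2 ≤ (q / 2) ^ 2 := by linarith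
    have h3 := abs_le_of_sq_le_sq h2 (by linarith : (0 : ℝ) ≤ q / 2)
    linarith [(abs_le.mp h3).1]
  have hs0 : 0 ≤ ∑ j, (l j - q) ^ 2 := Finset.sum_nonneg fun j _ => sq_nonneg _
  have h1 : f a b ≤ 2 * τ := by linarith
  have hab1 := hv a b
  rw [dist_eq_norm] at hab1 ⊢
  have hn0 := norm_nonneg (v a - v b)
  have h2 : (q / 2) ^ 2 * (1 - ‖v a - v b‖ ^ 2) ≤ f a b := by
    show _ ≤ l a * l b * (1 - ‖v a - v b‖ ^ 2)
    apply mul_le_mul_of_nonneg_right _ (by nlinarith)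
    have h3 := mul_le_mul (hlow a) (hlow b) (by linarith) (hl0 a)
    nlinarith
  have h4 : q ^ 2 * (1 - ‖v a - v b‖ ^ 2) ≤ 8 * τ := by nlinarith
  have h5 : 1 - ‖v a - v b‖ ^ 2 ≤ 8 * ((d : ℝ) + 1) ^ 2 * τ := by
    have h6 : ((d : ℝ) + 1) ^ 2 * (q ^ 2 * (1 - ‖v a - v b‖ ^ 2)) ≤
        ((d : ℝ) + 1) ^ 2 * (8 * τ) := mul_le_mul_of_nonneg_left h4 (sq_nonneg _)
    have h7 : ((d : ℝ) + 1) ^ 2 * (q ^ 2 * (1 - ‖v a - v b‖ ^ 2)) =
        (q * ((d : ℝ) + 1)) ^ 2 * (1 - ‖v a - v b‖ ^ 2) := by ring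
    rw [h7, hqN] at h6
    linarith
  nlinarith

/-- **Borsuk's bound near Jung's bound**. -/
theorem cover_of_circumradius (hC : CellLt d) : ∃ ε : ℝ, 0 < ε ∧ ε < 1 ∧
    ∀ Y : Set (E d), Bornology.IsBounded Y → 0 < Metric.diam Y →
      (∀ c : E d, ¬ Y ⊆ closedBall c ((1 - ε) * √(d / (2 * (d + 1))) * Metric.diam Y)) →
      IsSmallerCover Y (d + 1) := by
  classical
  obtain ⟨η, h0, h1, h⟩ := cover_of_simplex hC
  have hN : (0 : ℝ) < (d : ℝ) + 1 := by positivity
  have hN1 : (1 : ℝ) ≤ ((d : ℝ) + 1) ^ 2 := by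
    have : (0 : ℝ) ≤ d := by positivity
    nlinarith
  set τ : ℝ := η / (8 * ((d : ℝ) + 1) ^ 2) with hτ
  have hτ0 : 0 < τ := by positivity
  have hτη : 8 * ((d : ℝ) + 1) ^ 2 * τ = η := by
    rw [hτ]
    field_simp
  have hτ1 : τ < 1 := by nlinarith
  refine ⟨τ, hτ0, hτ1, ?_⟩
  intro Y hbd hpos hno
  apply h Y hbd hpos
  set D := Metric.diam Y with hD
  set R : ℝ := √(d / (2 * (d + 1))) with hR
  have hR2 : R ^ 2 = d / (2 * (d + 1)) := Real.sq_sqrt (by positivity)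
  have hR0 : 0 ≤ R := Real.sqrt_nonneg _
  have hR1 : R ^ 2 ≤ 1 / 2 := by
    rw [hR2, div_le_div_iff₀ (by positivity) (by norm_num)]
    linarith
  set r : ℝ := (1 - τ) * R with hr
  have hr0 : 0 ≤ r := mul_nonneg (by linarith) hR0
  have hH : ¬ ∀ I : Finset Y, I.card ≤ Module.finrank ℝ (E d) + 1 →
      (⋂ i ∈ I, closedBall (i : E d) (r * D)).Nonempty := by
    intro hI
    obtain ⟨c, hc⟩ := Convex.helly_theorem_compact' (𝕜 := ℝ)
      (F := fun y : Y => closedBall (y : E d) (r * D))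
      (fun y => convex_closedBall _ _) (fun y => isCompact_closedBall _ _) hI
    apply hno c
    intro y hy
    have h2 := mem_iInter.mp hc ⟨y, hy⟩
    rw [mem_closedBall] at h2 ⊢
    rw [dist_comm]
    exact h2
  push Not at hH
  obtain ⟨I, hIc, hIe⟩ := hH
  rw [finrank_euclideanSpace, Fintype.card_fin] at hIc
  have hIne : Nonempty I := by
    by_contra hcon
    rw [not_nonempty_iff] at hcon
    have : I = ∅ := by
      rw [Finset.eq_empty_iff_forall_notMem]
      intro y hy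
      exact hcon.elim ⟨y, hy⟩
    subst this
    simp at hIe
  obtain ⟨g⟩ : Nonempty (I ↪ Fin (d + 1)) := by
    apply Function.Embedding.nonempty_of_card_le
    rw [Fintype.card_coe, Fintype.card_fin]
    exact hIc
  have hsurj := Function.invFun_surjective g.injective
  set w : Fin (d + 1) → E d := fun j => ((Function.invFun g j : I) : Y) with hw
  have hwY : ∀ j, w j ∈ Y := fun j => ((Function.invFun g j : I) : Y).2
  have hno2 : ∀ c, ¬ ∀ j, ‖w j - c‖ ≤ r * D := by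
    intro c hc
    have : c ∈ ⋂ i ∈ I, closedBall (i : E d) (r * D) := by
      refine mem_iInter₂.mpr fun y hy => ?_
      obtain ⟨j, hj⟩ := hsurj ⟨y, hy⟩
      have h2 := hc j
      rw [hw] at h2
      simp only [hj] at h2
      rw [mem_closedBall, dist_comm, dist_eq_norm]
      exact h2
    rw [hIe] at this
    exact this
  have hD0 : D ≠ 0 := hpos.ne'
  have hsc : ∀ x y : E d, dist (D⁻¹ • x) (D⁻¹ • y) = D⁻¹ * dist x y := by
    intro x y
    rw [dist_smul₀, Real.norm_eq_abs, abs_of_pos (inv_pos.mpr hpos)]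
  have hnear := near (fun j => D⁻¹ • w j) (fun j k => by
      rw [hsc]
      calc D⁻¹ * dist (w j) (w k) ≤ D⁻¹ * D := mul_le_mul_of_nonneg_left
            (Metric.dist_le_diam_of_mem hbd (hwY j) (hwY k)) (inv_pos.mpr hpos).le
        _ = 1 := inv_mul_cancel₀ hD0) (τ := τ) (r := r) (by rw [hτη]; exact h1.le) hr0
    (by
      have e1 : ((1 - τ) * R) ^ 2 = R ^ 2 - 2 * (τ * R ^ 2) + τ ^ 2 * R ^ 2 := by ring
      have e2 : τ * R ^ 2 ≤ τ * (1 / 2) := mul_le_mul_of_nonneg_left hR1 hτ0.le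
      have e3 : 0 ≤ τ ^ 2 * R ^ 2 := by positivity
      rw [← hR2, hr, e1]
      linarith) (fun c hc => hno2 (D • c) fun j => by
      have h2 := hc j
      have e : w j - D • c = D • (D⁻¹ • w j - c) := by
        rw [smul_sub, smul_smul, mul_inv_cancel₀ hD0, one_smul]
      rw [e, norm_smul, Real.norm_eq_abs, abs_of_pos hpos, mul_comm]
      exact mul_le_mul_of_nonneg_right h2 hpos.le)
  refine ⟨w, hwY, fun j k hjk => ?_⟩
  have h3 := hnear j k hjk
  rw [hτη, hsc] at h3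
  have h4 := mul_le_mul_of_nonneg_left h3 hpos.le
  rw [← mul_assoc, mul_inv_cancel₀ hD0, one_mul, mul_comm] at h4
  exact h4

end Vale.Agent.P052.J373
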