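import Vale.Agent.P052.R4.H373.Stable
import Mathlib.Analysis.Convex.Radon

/-!
The cover of a set which contains a nearly regular simplex; sets of large circumradius contain
such simplices.
-/

namespace Vale.Agent.P052.J373

open Metric Set
open scoped RealInnerProductSpace

variable {d : ℕ}

/-- a set which contains a nearly regular simplex is a union of `d + 1` sets of smaller
diameter. -/
theorem cover_of_simplex (hC : CellLt d) : ∃ η : ℝ, 0 < η ∧ η < 1 ∧
    ∀ Y : Set (E d), Bornology.IsBounded Y → 0 < Metric.diam Y →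
      (∃ v : Fin (d + 1) → E d, (∀ j, v j ∈ Y) ∧
        ∀ j k, j ≠ k → (1 - η) * Metric.diam Y ≤ dist (v j) (v k)) →
      IsSmallerCover Y (d + 1) := by
  obtain ⟨η, h0, h1, h⟩ := stable hC
  refine ⟨η, h0, h1, ?_⟩
  rintro Y hbd hpos ⟨v, hv, hvd⟩
  set D := Metric.diam Y with hD
  have hD0 : D ≠ 0 := hpos.ne'
  have hsc : ∀ x y : E d, dist (D⁻¹ • x) (D⁻¹ • y) = D⁻¹ * dist x y := by
    intro x y
    rw [dist_smul₀, Real.norm_eq_abs, abs_of_pos (inv_pos.mpr hpos)]
  have hle : ∀ x ∈ Y, ∀ y ∈ Y, dist (D⁻¹ • x) (D⁻¹ • y) ≤ 1 := by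
    intro x hx y hy
    rw [hsc]
    calc D⁻¹ * dist x y ≤ D⁻¹ * D :=
          mul_le_mul_of_nonneg_left (Metric.dist_le_diam_of_mem hbd hx hy) (inv_pos.mpr hpos).le
      _ = 1 := inv_mul_cancel₀ hD0
  refine ⟨fun i => {x | x ∈ Y ∧ ∀ j, dist x (v i) ≤ dist x (v j)}, ?_, ?_⟩
  · ext x
    simp only [mem_iUnion, mem_setOf_eq]
    constructor
    · rintro ⟨i, hx, -⟩
      exact hx
    · intro hx
      obtain ⟨i, hi⟩ := Finite.exists_min (fun j => dist x (v j))
      exact ⟨i, hx, hi⟩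
  · intro i
    refine lt_of_le_of_lt (Metric.diam_le_of_forall_dist_le (C := (1 - η) * D)
      (mul_nonneg (by linarith) hpos.le) ?_) ?_
    · rintro x ⟨hx, hxi⟩ y ⟨hy, hyi⟩
      have h2 := h (fun j => D⁻¹ • v j) (fun j k => hle _ (hv j) _ (hv k)) (fun j k hjk => by
          rw [hsc]
          have h3 := mul_le_mul_of_nonneg_left (hvd j k hjk) (inv_pos.mpr hpos).le
          calc 1 - η = D⁻¹ * ((1 - η) * D) := by field_simp
            _ ≤ _ := h3) i (D⁻¹ • x) (D⁻¹ • y) (fun j => hle _ hx _ (hv j))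
        (fun j => hle _ hy _ (hv j))
        (fun j => by
          rw [hsc, hsc]
          exact mul_le_mul_of_nonneg_left (hxi j) (inv_pos.mpr hpos).le)
        (fun j => by
          rw [hsc, hsc]
          exact mul_le_mul_of_nonneg_left (hyi j) (inv_pos.mpr hpos).le)
      rw [hsc] at h2
      calc dist x y = D * (D⁻¹ * dist x y) := by field_simp
        _ ≤ D * (1 - η) := mul_le_mul_of_nonneg_left h2 hpos.le
        _ = (1 - η) * D := mul_comm _ _
    · nlinarith

/-! ### the circumradius -/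

/-- `∑ λ_k |z - v_k|²`. -/
theorem sum_dist_sq {n : ℕ} (v : Fin n → E d) (l : Fin n → ℝ) (hl : ∑ k, l k = 1)
    (c : E d) (hc : c = ∑ k, l k • v k) (z : E d) :
    ∑ k, l k * ‖z - v k‖ ^ 2 = ‖z - c‖ ^ 2 + ∑ k, l k * ‖v k - c‖ ^ 2 := by
  have h1 : ∀ k ∈ (Finset.univ : Finset (Fin n)), l k * ‖z - v k‖ ^ 2 =
      l k * ‖z - c‖ ^ 2 - 2 * ⟪z - c, l k • (v k - c)⟫ + l k * ‖v k - c‖ ^ 2 := by
    intro k _
    have e : z - v k = (z - c) - (v k - c) := by abel
    rw [e, norm_sub_sq_real, real_inner_smul_right]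
    ring
  have h2 : ∑ k, l k • (v k - c) = 0 := by
    simp only [smul_sub]
    rw [Finset.sum_sub_distrib, ← Finset.sum_smul, hl, one_smul, hc, sub_self]
  rw [Finset.sum_congr rfl h1, Finset.sum_add_distrib, Finset.sum_sub_distrib,
    ← Finset.sum_mul, hl, one_mul, ← Finset.mul_sum, ← inner_sum, h2, inner_zero_right]
  ring

/-- **minimal enclosing ball**, dual form: there are weights such that all points lie in the ball
of squared radius `G`, where `2 G = ∑ λ_j λ_k |v_j - v_k|²`. -/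
theorem exists_ball {n : ℕ} (hn : 0 < n) (v : Fin n → E d) :
    ∃ (l : Fin n → ℝ) (c : E d), (∀ k, 0 ≤ l k) ∧ ∑ k, l k = 1 ∧
      ∀ j, ‖v j - c‖ ^ 2 ≤ (∑ j, ∑ k, l j * l k * ‖v j - v k‖ ^ 2) / 2 := by
  classical
  have : Nonempty (Fin n) := ⟨⟨0, hn⟩⟩
  let G : (Fin n → ℝ) → ℝ := fun l => (∑ j, ∑ k, l j * l k * ‖v j - v k‖ ^ 2) / 2
  have hG : Continuous G := by
    refine Continuous.div_const (continuous_finset_sum _ fun j _ =>
      continuous_finset_sum _ fun k _ => ?_) _
    fun_prop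
  obtain ⟨l, hl, hmax⟩ := (isCompact_stdSimplex ℝ (Fin n)).exists_isMaxOn
    ⟨_, single_mem_stdSimplex ℝ (Classical.arbitrary (Fin n))⟩ hG.continuousOn
  obtain ⟨hl0, hl1⟩ := hl
  refine ⟨l, ∑ k, l k • v k, hl0, hl1, ?_⟩
  intro j
  set c := ∑ k, l k • v k with hc
  let S : Fin n → ℝ := fun j => ∑ k, l k * ‖v j - v k‖ ^ 2
  have hS : ∀ j, S j = ‖v j - c‖ ^ 2 + ∑ k, l k * ‖v k - c‖ ^ 2 :=
    fun j => sum_dist_sq v l hl1 c hc (v j)
  have hGS : G l = (∑ j, l j * S j) / 2 := by
    show (∑ j, ∑ k, l j * l k * ‖v j - v k‖ ^ 2) / 2 = _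
    congr 1
    refine Finset.sum_congr rfl fun j _ => ?_
    show _ = l j * ∑ k, l k * ‖v j - v k‖ ^ 2
    rw [Finset.mul_sum]
    exact Finset.sum_congr rfl fun k _ => by ring
  have hGV : G l = ∑ k, l k * ‖v k - c‖ ^ 2 := by
    rw [hGS]
    have : ∑ j, l j * S j = ∑ j, (l j * ‖v j - c‖ ^ 2 + l j * ∑ k, l k * ‖v k - c‖ ^ 2) :=
      Finset.sum_congr rfl fun j _ => by rw [hS j]; ring
    rw [this, Finset.sum_add_distrib, ← Finset.sum_mul, hl1]
    ring
  have hG0 : 0 ≤ G l := by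
    rw [hGV]
    exact Finset.sum_nonneg fun k _ => mul_nonneg (hl0 k) (sq_nonneg _)
  have hS0 : 0 ≤ S j := Finset.sum_nonneg fun k _ => mul_nonneg (hl0 k) (sq_nonneg _)
  have hle : S j ≤ 2 * G l := by
    by_contra hcon
    push Not at hcon
    have hSpos : 0 < S j := by linarith
    set t : ℝ := (S j - 2 * G l) / (2 * S j) with ht
    have ht0 : 0 < t := div_pos (by linarith) (by linarith)
    have htS : t * S j = (S j - 2 * G l) / 2 := by
      rw [ht]
      field_simp
    have ht1 : t ≤ 1 := by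
      rw [ht, div_le_one (by linarith)]
      linarith
    let l' : Fin n → ℝ := fun k => (1 - t) * l k + t * (if k = j then 1 else 0)
    have hl' : l' ∈ stdSimplex ℝ (Fin n) := by
      refine ⟨fun k => ?_, ?_⟩
      · show 0 ≤ (1 - t) * l k + t * (if k = j then 1 else 0)
        have h1 : 0 ≤ (1 - t) * l k := mul_nonneg (by linarith) (hl0 k)
        have h2 : 0 ≤ t * (if k = j then (1 : ℝ) else 0) := by
          apply mul_nonneg ht0.le
          split_ifs
          · exact zero_le_one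
          · exact le_rfl
        linarith
      · show ∑ k, ((1 - t) * l k + t * (if k = j then 1 else 0)) = 1
        rw [Finset.sum_add_distrib, ← Finset.mul_sum, ← Finset.mul_sum, hl1,
          Finset.sum_ite_eq' Finset.univ j, if_pos (Finset.mem_univ j)]
        ring
    have hval : G l' = (1 - t) ^ 2 * G l + t * (1 - t) * S j := by
      show (∑ a, ∑ b, l' a * l' b * ‖v a - v b‖ ^ 2) / 2 = _
      have e1 : ∀ a, ∑ b, l' a * l' b * ‖v a - v b‖ ^ 2 =
          l' a * ((1 - t) * S a + t * ‖v a - v j‖ ^ 2) := by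
        intro a
        have : ∑ b, l' a * l' b * ‖v a - v b‖ ^ 2 = l' a * ∑ b, ((1 - t) *
            (l b * ‖v a - v b‖ ^ 2) + (if b = j then t * ‖v a - v b‖ ^ 2 else 0)) := by
          rw [Finset.mul_sum]
          refine Finset.sum_congr rfl fun b _ => ?_
          show l' a * ((1 - t) * l b + t * (if b = j then 1 else 0)) * ‖v a - v b‖ ^ 2 = _
          split_ifs <;> ring
        rw [this, Finset.sum_add_distrib, ← Finset.mul_sum, Finset.sum_ite_eq' Finset.univ j,
          if_pos (Finset.mem_univ j)]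
      rw [Finset.sum_congr rfl fun a _ => e1 a]
      have e2 : ∑ a, l' a * ((1 - t) * S a + t * ‖v a - v j‖ ^ 2) =
          ∑ a, ((1 - t) ^ 2 * (l a * S a) + t * (1 - t) * (l a * ‖v j - v a‖ ^ 2) +
            (if a = j then t * ((1 - t) * S a + t * ‖v a - v j‖ ^ 2) else 0)) := by
        refine Finset.sum_congr rfl fun a _ => ?_
        show ((1 - t) * l a + t * (if a = j then 1 else 0)) * _ = _
        rw [norm_sub_rev (v j) (v a)]
        split_ifs <;> ring
      rw [e2, Finset.sum_add_distrib, Finset.sum_add_distrib, ← Finset.mul_sum,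
        ← Finset.mul_sum, Finset.sum_ite_eq' Finset.univ j, if_pos (Finset.mem_univ j),
        sub_self, norm_zero, hGS]
      show _ = (1 - t) ^ 2 * ((∑ j, l j * S j) / 2) + t * (1 - t) * S j
      have e3 : ∑ a, l a * ‖v j - v a‖ ^ 2 = S j := rfl
      rw [e3]
      ring
    have h1 : G l' ≤ G l := hmax hl'
    rw [hval] at h1
    have h2 : t * ((1 - t) * S j - (2 - t) * G l) ≤ 0 := by nlinarith
    have h3 : (1 - t) * S j - (2 - t) * G l ≤ 0 := by
      by_contra h4
      have := mul_pos ht0 (not_le.mp h4)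
      linarith
    have h5 : 0 ≤ t * G l := mul_nonneg ht0.le hG0
    nlinarith
  show ‖v j - c‖ ^ 2 ≤ G l
  have h6 := hS j
  rw [← hGV] at h6
  linarith

end Vale.Agent.P052.J373
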