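import Vale.Agent.P052.R4.H373.Circum

/-!
Explicit form of the circumradius theorem in dimensions 4, 5, 6: cells of the contact simplex.
-/

namespace Vale.Agent.P052.J373

open Metric Set Module
open scoped RealInnerProductSpace

variable {d : ℕ}

/-- contact simplex: centre `0`, all vertices at squared distance `G`, positive weights. -/
structure IsContact (u : Fin (d + 1) → E d) (l : Fin (d + 1) → ℝ) (G : ℝ) : Prop where
  norm_sq : ∀ j, ‖u j‖ ^ 2 = G
  dist_le : ∀ j k, ‖u j - u k‖ ≤ 1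
  pos : ∀ j, 0 < l j
  sum_zero : ∑ j, l j • u j = 0
  large : ((d : ℝ) - 1) / (2 * d) < G

variable {u : Fin (d + 1) → E d} {l : Fin (d + 1) → ℝ} {G : ℝ}

theorem IsContact.inner_ge (h : IsContact u l G) (j k : Fin (d + 1)) :
    G - 1 / 2 + (if j = k then 1 / 2 else 0) ≤ ⟪u j, u k⟫ := by
  split_ifs with hjk
  · subst hjk
    rw [real_inner_self_eq_norm_sq, h.norm_sq]
    linarith
  · have h1 := norm_sub_sq_real (u j) (u k)
    rw [h.norm_sq j, h.norm_sq k] at h1
    have h2 := pow_le_pow_left₀ (norm_nonneg _) (h.dist_le j k) 2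
    linarith

/-- the main quadratic bound: nonnegative combinations with a zero coefficient. -/
theorem IsContact.norm_comb (h : IsContact u l G) (hd : 1 ≤ d) (b : Fin (d + 1) → ℝ)
    (hb : ∀ j, 0 ≤ b j) {i : Fin (d + 1)} (hi : b i = 0) :
    (G - ((d : ℝ) - 1) / (2 * d)) * (∑ j, b j) ^ 2 ≤ ‖∑ j, b j • u j‖ ^ 2 := by
  classical
  have hd0 : (0 : ℝ) < d := by exact_mod_cast hd
  have h1 : ‖∑ j, b j • u j‖ ^ 2 = ∑ j, ∑ k, b j * b k * ⟪u j, u k⟫ := by
    rw [← real_inner_self_eq_norm_sq, _root_.sum_inner]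
    refine Finset.sum_congr rfl fun j _ => ?_
    rw [inner_sum]
    refine Finset.sum_congr rfl fun k _ => ?_
    rw [real_inner_smul_left, real_inner_smul_right]
    ring
  have h2 : ∑ j, ∑ k, b j * b k * (G - 1 / 2 + (if j = k then 1 / 2 else 0)) ≤
      ∑ j, ∑ k, b j * b k * ⟪u j, u k⟫ :=
    Finset.sum_le_sum fun j _ => Finset.sum_le_sum fun k _ =>
      mul_le_mul_of_nonneg_left (h.inner_ge j k) (mul_nonneg (hb j) (hb k))
  have h3 : ∑ j, ∑ k, b j * b k * (G - 1 / 2 + (if j = k then 1 / 2 else 0)) =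
      (G - 1 / 2) * (∑ j, b j) ^ 2 + (∑ j, b j ^ 2) / 2 := by
    have e : ∀ j ∈ (Finset.univ : Finset (Fin (d + 1))),
        ∑ k, b j * b k * (G - 1 / 2 + (if j = k then 1 / 2 else 0)) =
        (G - 1 / 2) * ((∑ k, b k) * b j) + b j ^ 2 / 2 := by
      intro j _
      have e2 : ∀ k ∈ (Finset.univ : Finset (Fin (d + 1))),
          b j * b k * (G - 1 / 2 + (if j = k then 1 / 2 else 0)) =
          (G - 1 / 2) * b j * b k + (if j = k then b j * b k / 2 else 0) := by
        intro k _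
        split_ifs <;> ring
      rw [Finset.sum_congr rfl e2, Finset.sum_add_distrib, ← Finset.mul_sum,
        Finset.sum_ite_eq Finset.univ j, if_pos (Finset.mem_univ j)]
      ring
    rw [Finset.sum_congr rfl e, Finset.sum_add_distrib, ← Finset.mul_sum, ← Finset.mul_sum,
      Finset.sum_div]
    ring
  have h4 : (∑ j, b j) ^ 2 ≤ d * ∑ j, b j ^ 2 := by
    have e7 : ∑ j, b j = ∑ j ∈ Finset.univ.erase i, b j := by
      rw [← Finset.add_sum_erase _ _ (Finset.mem_univ i), hi, zero_add]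
    have e8 : ∑ j, b j ^ 2 = ∑ j ∈ Finset.univ.erase i, b j ^ 2 := by
      rw [← Finset.add_sum_erase _ _ (Finset.mem_univ i), hi]
      ring
    rw [e7, e8]
    have := sq_sum_le_card_mul_sum_sq (s := Finset.univ.erase i) (f := b)
    rw [Finset.card_erase_of_mem (Finset.mem_univ i), Finset.card_univ, Fintype.card_fin] at this
    simpa using this
  rw [h1]
  refine le_trans ?_ h2
  rw [h3]
  have h5 : ((d : ℝ) - 1) / (2 * d) = 1 / 2 - 1 / (2 * d) := by
    field_simp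
  rw [h5]
  have h6 : 1 / (2 * (d : ℝ)) * (∑ j, b j) ^ 2 ≤ (∑ j, b j ^ 2) / 2 := by
    rw [div_mul_eq_mul_div, one_mul, div_le_iff₀ (by positivity)]
    linarith
  linarith

/-- relations are proportional to the weights. -/
theorem IsContact.shift (h : IsContact u l G) (b : Fin (d + 1) → ℝ) :
    ∃ t : ℝ, (∀ j, 0 ≤ b j - t * l j) ∧ ∃ i, b i - t * l i = 0 := by
  obtain ⟨i, hi⟩ := Finite.exists_min (fun j => b j / l j)
  refine ⟨b i / l i, fun j => ?_, i, ?_⟩
  · have h1 := hi j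
    have h2 := (le_div_iff₀ (h.pos j)).mp h1
    linarith
  · have := (h.pos i).ne'
    field_simp
    ring

theorem IsContact.sum_shift (h : IsContact u l G) (b : Fin (d + 1) → ℝ) (t : ℝ) :
    ∑ j, (b j - t * l j) • u j = ∑ j, b j • u j := by
  simp only [sub_smul, mul_smul]
  rw [Finset.sum_sub_distrib, ← Finset.smul_sum, h.sum_zero, smul_zero, sub_zero]

/-- every vector is a nonnegative combination with a zero coefficient. -/
theorem IsContact.exists_comb (h : IsContact u l G) (hd : 1 ≤ d) (z : E d) :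
    ∃ a : Fin (d + 1) → ℝ, (∀ j, 0 ≤ a j) ∧ (∃ i, a i = 0) ∧ ∑ j, a j • u j = z := by
  have hκ : 0 < G - ((d : ℝ) - 1) / (2 * d) := sub_pos.mpr h.large
  let φ : (Fin (d + 1) → ℝ) →ₗ[ℝ] E d := Fintype.linearCombination ℝ u
  have hφ : ∀ b, φ b = ∑ j, b j • u j := fun b => by
    simp [φ, Fintype.linearCombination_apply]
  have hker : LinearMap.ker φ ≤ ℝ ∙ l := by
    intro b hb
    rw [LinearMap.mem_ker, hφ] at hb
    obtain ⟨t, ht, i, hi⟩ := h.shift b
    have h1 := h.norm_comb hd (fun j => b j - t * l j) ht hi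
    rw [h.sum_shift, hb, norm_zero] at h1
    have h2 : (∑ j, (b j - t * l j)) ^ 2 ≤ 0 := by
      by_contra hcon
      have := mul_pos hκ (not_le.mp hcon)
      linarith
    have h3 : ∑ j, (b j - t * l j) = 0 := pow_eq_zero_iff (two_ne_zero) |>.mp
      (le_antisymm h2 (sq_nonneg _))
    have h4 := (Finset.sum_eq_zero_iff_of_nonneg (fun j _ => ht j)).mp h3
    rw [Submodule.mem_span_singleton]
    refine ⟨t, ?_⟩
    ext j
    have := h4 j (Finset.mem_univ j)
    simp only [Pi.smul_apply, smul_eq_mul]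
    linarith
  have hrk : d ≤ finrank ℝ (LinearMap.range φ) := by
    have h5 := LinearMap.finrank_range_add_finrank_ker φ
    have h6 : finrank ℝ (LinearMap.ker φ) ≤ 1 := by
      refine (Submodule.finrank_mono hker).trans ?_
      have := finrank_span_le_card (R := ℝ) ({l} : Set (Fin (d + 1) → ℝ))
      simpa using this
    rw [finrank_pi, Fintype.card_fin] at h5
    omega
  have htop : LinearMap.range φ = ⊤ := by
    apply Submodule.eq_top_of_finrank_eq
    rw [finrank_euclideanSpace, Fintype.card_fin]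
    apply le_antisymm _ hrk
    have := Submodule.finrank_le (LinearMap.range φ)
    rwa [finrank_euclideanSpace, Fintype.card_fin] at this
  obtain ⟨b, hb⟩ : ∃ b, φ b = z := by
    have : z ∈ LinearMap.range φ := htop ▸ Submodule.mem_top
    exact this
  obtain ⟨t, ht, i, hi⟩ := h.shift b
  refine ⟨fun j => b j - t * l j, ht, ⟨i, hi⟩, ?_⟩
  rw [h.sum_shift, ← hφ, hb]

/-- the first inequality. -/
theorem IsContact.cell (h : IsContact u l G) {x : E d} {a : Fin (d + 1) → ℝ}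
    (ha : ∀ j, 0 ≤ a j) (hax : ∑ j, a j • u j = -x) (hx : ∀ j, ‖x - u j‖ ≤ 1) :
    ‖x‖ ^ 2 ≤ (1 - G - ‖x‖ ^ 2) * (1 / 2 * ∑ j, a j) := by
  have h1 : ‖x‖ ^ 2 = ∑ j, a j * (-⟪x, u j⟫) := by
    have e : ⟪x, -x⟫ = ∑ j, a j * ⟪x, u j⟫ := by
      rw [← hax, inner_sum]
      exact Finset.sum_congr rfl fun j _ => real_inner_smul_right _ _ _
    rw [inner_neg_right, real_inner_self_eq_norm_sq] at e
    simp only [mul_neg, Finset.sum_neg_distrib]
    linarith
  have h2 : ∑ j, a j * (-⟪x, u j⟫) ≤ ∑ j, a j * ((1 - G - ‖x‖ ^ 2) / 2) := by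
    refine Finset.sum_le_sum fun j _ => mul_le_mul_of_nonneg_left ?_ (ha j)
    have e := norm_sub_sq_real x (u j)
    rw [h.norm_sq j] at e
    have e2 := pow_le_pow_left₀ (norm_nonneg _) (hx j) 2
    linarith
  rw [← h1, ← Finset.sum_mul] at h2
  linarith

/-- **cells of the contact simplex are small**. -/
theorem IsContact.pair_le (h : IsContact u l G) (hd : 1 ≤ d) {G₀ A : ℝ}
    (hG₀ : ((d : ℝ) - 1) / (2 * d) < G₀) (hG : G₀ ≤ G) (hG1 : G₀ < 1) {x y : E d}
    {a b : Fin (d + 1) → ℝ} (ha : ∀ j, 0 ≤ a j) (hb : ∀ j, 0 ≤ b j) {i : Fin (d + 1)}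
    (hai : a i = 0) (hbi : b i = 0) (hax : ∑ j, a j • u j = -x) (hby : ∑ j, b j • u j = -y)
    (hx : ∀ j, ‖x - u j‖ ≤ 1) (hy : ∀ j, ‖y - u j‖ ≤ 1) :
    ‖x - y‖ ^ 2 ≤ 4 * (1 - G₀) - 8 * A + 4 * A ^ 2 / (1 - G₀) +
      (A ^ 2 * (1 / 2) / (1 - G₀)) ^ 2 * (1 / (G₀ - ((d : ℝ) - 1) / (2 * d))) := by
  have hκ₀ : 0 < G₀ - ((d : ℝ) - 1) / (2 * d) := sub_pos.mpr hG₀
  have hα : 0 ≤ ∑ j, a j := Finset.sum_nonneg fun j _ => ha j
  have hβ : 0 ≤ ∑ j, b j := Finset.sum_nonneg fun j _ => hb j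
  have h1 := h.cell ha hax hx
  have h2 := h.cell hb hby hy
  have h3 : ‖x‖ ^ 2 ≤ (1 - G₀ - ‖x‖ ^ 2) * (1 / 2 * ∑ j, a j) :=
    h1.trans (mul_le_mul_of_nonneg_right (by linarith) (by linarith))
  have h4 : ‖y‖ ^ 2 ≤ (1 - G₀ - ‖y‖ ^ 2) * (1 / 2 * ∑ j, b j) :=
    h2.trans (mul_le_mul_of_nonneg_right (by linarith) (by linarith))
  have h5 := h.norm_comb hd (fun j => a j + b j) (fun j => add_nonneg (ha j) (hb j))
    (i := i) (by rw [hai, hbi, add_zero])
  have h6 : ∑ j, (a j + b j) • u j = -(x + y) := by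
    simp only [add_smul]
    rw [Finset.sum_add_distrib, hax, hby]
    abel
  rw [h6, norm_neg, Finset.sum_add_distrib] at h5
  have h7 : (G₀ - ((d : ℝ) - 1) / (2 * d)) * (∑ j, a j + ∑ j, b j) ^ 2 ≤ ‖x + y‖ ^ 2 :=
    le_trans (mul_le_mul_of_nonneg_right (by linarith) (sq_nonneg _)) h5
  have h8 := parallelogram_law_with_norm ℝ x y
  have h9 : ‖x - y‖ ^ 2 = 2 * ‖x‖ ^ 2 + 2 * ‖y‖ ^ 2 - ‖x + y‖ ^ 2 := by nlinarith
  refine bound (by linarith) (by positivity) (by norm_num : (0 : ℝ) < 1 / 2) hα hβ h3 h4 ?_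
  set κ := G₀ - ((d : ℝ) - 1) / (2 * d) with hκ
  have h10 : (∑ j, a j + ∑ j, b j) ^ 2 ≤ ‖x + y‖ ^ 2 * (1 / κ) := by
    rw [mul_one_div, le_div_iff₀ hκ₀, mul_comm]
    exact h7
  rw [h9]
  linarith

/-- `d + 1` points in no ball of squared radius less than `G₀` give a contact simplex. -/
theorem exists_contact (hd : 1 ≤ d) (v : Fin (d + 1) → E d)
    (hv : ∀ j k, dist (v j) (v k) ≤ 1) {G₀ r : ℝ} (hG₀ : ((d : ℝ) - 1) / (2 * d) < G₀)
    (hr0 : 0 ≤ r) (hr : r ^ 2 = G₀) (hno : ∀ c, ¬ ∀ j, ‖v j - c‖ ≤ r) :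
    ∃ (c : E d) (l : Fin (d + 1) → ℝ) (G : ℝ), G₀ ≤ G ∧ IsContact (fun j => v j - c) l G := by
  classical
  obtain ⟨l, c, hl0, hl1, hc⟩ := exists_ball (Nat.succ_pos d) v
  set G := (∑ j, ∑ k, l j * l k * ‖v j - v k‖ ^ 2) / 2 with hG
  have hd0 : (0 : ℝ) < d := by exact_mod_cast hd
  have hGr : r ^ 2 < G := by
    by_contra hcon
    apply hno c
    intro j
    have h1 := (hc j).trans (not_lt.mp hcon)
    exact le_of_sq_le_sq h1 hr0
  -- the centre is the weighted mean
  set c' := ∑ k, l k • v k with hc'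
  have hGV : G = ∑ k, l k * ‖v k - c'‖ ^ 2 := by
    have h1 : ∀ j, ∑ k, l k * ‖v j - v k‖ ^ 2 = ‖v j - c'‖ ^ 2 + ∑ k, l k * ‖v k - c'‖ ^ 2 :=
      fun j => sum_dist_sq v l hl1 c' hc' (v j)
    have h2 : ∑ j, ∑ k, l j * l k * ‖v j - v k‖ ^ 2 =
        ∑ j, (l j * ‖v j - c'‖ ^ 2 + l j * ∑ k, l k * ‖v k - c'‖ ^ 2) := by
      refine Finset.sum_congr rfl fun j _ => ?_
      rw [← mul_add, ← h1 j, Finset.mul_sum]
      exact Finset.sum_congr rfl fun k _ => by ring
    rw [hG, h2, Finset.sum_add_distrib, ← Finset.sum_mul, hl1]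
    ring
  have hcc : c = c' := by
    have h1 := sum_dist_sq v l hl1 c' hc' c
    have h2 : ∑ k, l k * ‖c - v k‖ ^ 2 ≤ ∑ k, l k * G := by
      refine Finset.sum_le_sum fun k _ => mul_le_mul_of_nonneg_left ?_ (hl0 k)
      rw [norm_sub_rev]
      exact hc k
    rw [← Finset.sum_mul, hl1, one_mul, h1, ← hGV] at h2
    have h3 : ‖c - c'‖ ^ 2 ≤ 0 := by linarith
    have h4 : ‖c - c'‖ = 0 := pow_eq_zero_iff (two_ne_zero) |>.mp (le_antisymm h3 (sq_nonneg _))
    exact sub_eq_zero.mp (norm_eq_zero.mp h4)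
  -- all weights are positive
  have hpos : ∀ i, 0 < l i := by
    intro i
    by_contra hcon
    have hi : l i = 0 := le_antisymm (not_lt.mp hcon) (hl0 i)
    have h1 : (∑ j, l j) ^ 2 ≤ d * ∑ j, l j ^ 2 := by
      have e7 : ∑ j, l j = ∑ j ∈ Finset.univ.erase i, l j := by
        rw [← Finset.add_sum_erase _ _ (Finset.mem_univ i), hi, zero_add]
      have e8 : ∑ j, l j ^ 2 = ∑ j ∈ Finset.univ.erase i, l j ^ 2 := by
        rw [← Finset.add_sum_erase _ _ (Finset.mem_univ i), hi]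
        ring
      rw [e7, e8]
      have := sq_sum_le_card_mul_sum_sq (s := Finset.univ.erase i) (f := l)
      rw [Finset.card_erase_of_mem (Finset.mem_univ i), Finset.card_univ,
        Fintype.card_fin] at this
      simpa using this
    rw [hl1] at h1
    have h2 : 2 * G ≤ 1 - ∑ j, l j ^ 2 := by
      have h3 : ∑ j, ∑ k, l j * l k * ‖v j - v k‖ ^ 2 ≤ ∑ j, (l j - l j ^ 2) := by
        refine Finset.sum_le_sum fun j _ => ?_
        have h4 : ∑ k, l j * l k * ‖v j - v k‖ ^ 2 ≤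
            ∑ k, (l j * l k - if k = j then l j * l k else 0) := by
          refine Finset.sum_le_sum fun k _ => ?_
          split_ifs with hkj
          · rw [hkj, sub_self, norm_zero]
            norm_num
          · have h5 := hv j k
            rw [dist_eq_norm] at h5
            have h6 := pow_le_pow_left₀ (norm_nonneg _) h5 2
            have h7 := mul_nonneg (hl0 j) (hl0 k)
            nlinarith
        refine h4.trans (le_of_eq ?_)
        rw [Finset.sum_sub_distrib, ← Finset.mul_sum, hl1, Finset.sum_ite_eq' Finset.univ j,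
          if_pos (Finset.mem_univ j)]
        ring
      rw [Finset.sum_sub_distrib, hl1] at h3
      rw [hG]
      linarith
    have h8 : ((d : ℝ) - 1) / (2 * d) < (1 - ∑ j, l j ^ 2) / 2 := by linarith
    rw [div_lt_div_iff₀ (by positivity) (by norm_num)] at h8
    nlinarith
  have heq : ∀ j, ‖v j - c‖ ^ 2 = G := by
    have h1 : ∑ k, l k * (G - ‖v k - c'‖ ^ 2) = 0 := by
      have : ∀ k ∈ (Finset.univ : Finset (Fin (d + 1))), l k * (G - ‖v k - c'‖ ^ 2) =
          l k * G - l k * ‖v k - c'‖ ^ 2 := fun k _ => by ring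
      rw [Finset.sum_congr rfl this, Finset.sum_sub_distrib, ← Finset.sum_mul, hl1, ← hGV]
      ring
    have h2 := (Finset.sum_eq_zero_iff_of_nonneg (fun k _ => mul_nonneg (hl0 k) (by
      rw [← hcc]
      linarith [hc k]))).mp h1
    intro j
    have h3 := h2 j (Finset.mem_univ j)
    have h4 := (mul_eq_zero.mp h3).resolve_left (hpos j).ne'
    rw [hcc]
    linarith
  refine ⟨c, l, G, by rw [← hr]; exact hGr.le, heq, fun j k => ?_, hpos, ?_, ?_⟩
  · have e : v j - c - (v k - c) = v j - v k := by abel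
    rw [e, ← dist_eq_norm]
    exact hv j k
  · simp only [smul_sub]
    rw [Finset.sum_sub_distrib, ← Finset.sum_smul, hl1, one_smul, ← hc', hcc, sub_self]
  · rw [hr] at hGr
    linarith

end Vale.Agent.P052.J373
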