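import Vale.Agent.P052.R4.H373.Explicit

/-!
Explicit form of the circumradius theorem in dimensions 4, 5, 6.
-/

namespace Vale.Agent.P052.J373

open Metric Set Module
open scoped RealInnerProductSpace

variable {d : ℕ}

/-- the general form: `B` is the bound of `IsContact.pair_le`. -/
theorem cover_explicit (hd : 1 ≤ d) {G₀ A : ℝ} (hG₀ : ((d : ℝ) - 1) / (2 * d) < G₀)
    (hG1 : G₀ < 1) (hB : 4 * (1 - G₀) - 8 * A + 4 * A ^ 2 / (1 - G₀) +
      (A ^ 2 * (1 / 2) / (1 - G₀)) ^ 2 * (1 / (G₀ - ((d : ℝ) - 1) / (2 * d))) < 1)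
    (Y : Set (E d)) (hbd : Bornology.IsBounded Y) (hpos : 0 < Metric.diam Y)
    (hno : ∀ c : E d, ¬ Y ⊆ closedBall c (√G₀ * Metric.diam Y)) :
    IsSmallerCover Y (d + 1) := by
  classical
  set B : ℝ := 4 * (1 - G₀) - 8 * A + 4 * A ^ 2 / (1 - G₀) +
      (A ^ 2 * (1 / 2) / (1 - G₀)) ^ 2 * (1 / (G₀ - ((d : ℝ) - 1) / (2 * d))) with hBdef
  set D := Metric.diam Y with hD
  have hD0 : D ≠ 0 := hpos.ne'
  have hd1 : (1 : ℝ) ≤ d := by exact_mod_cast hd
  have hG0 : 0 ≤ G₀ := by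
    have : 0 ≤ ((d : ℝ) - 1) / (2 * d) := div_nonneg (by linarith) (by positivity)
    linarith
  set r : ℝ := √G₀ with hr
  have hr0 : 0 ≤ r := Real.sqrt_nonneg _
  have hr2 : r ^ 2 = G₀ := Real.sq_sqrt hG0
  have hH : ¬ ∀ I : Finset Y, I.card ≤ Module.finrank ℝ (E d) + 1 →
      (⋂ i ∈ I, closedBall (i : E d) (r * D)).Nonempty := by
    intro hI
    obtain ⟨c, hc⟩ := Convex.helly_theorem_compact' (𝕜 := ℝ)
      (F := fun y : Y => closedBall (y : E d) (r * D))
      (fun y => convex_closedBall _ _) (fun y => isCompact_closedBall _ _) hI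
    apply hno c
    intro y hy
    have h2 := mem_iInter.mp hc ⟨y, hy⟩
    rw [mem_closedBall] at h2 ⊢
    rw [dist_comm]
    exact h2
  push Not at hH
  obtain ⟨I, hIc, hIe⟩ := hH
  rw [finrank_euclideanSpace, Fintype.card_fin] at hIc
  have hIne : Nonempty I := by
    by_contra hcon
    rw [not_nonempty_iff] at hcon
    have : I = ∅ := by
      rw [Finset.eq_empty_iff_forall_notMem]
      intro y hy
      exact hcon.elim ⟨y, hy⟩
    subst this
    simp at hIe
  obtain ⟨g⟩ : Nonempty (I ↪ Fin (d + 1)) := by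
    apply Function.Embedding.nonempty_of_card_le
    rw [Fintype.card_coe, Fintype.card_fin]
    exact hIc
  have hsurj := Function.invFun_surjective g.injective
  set w : Fin (d + 1) → E d := fun j => ((Function.invFun g j : I) : Y) with hw
  have hwY : ∀ j, w j ∈ Y := fun j => ((Function.invFun g j : I) : Y).2
  have hno2 : ∀ c, ¬ ∀ j, ‖w j - c‖ ≤ r * D := by
    intro c hc
    have : c ∈ ⋂ i ∈ I, closedBall (i : E d) (r * D) := by
      refine mem_iInter₂.mpr fun y hy => ?_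
      obtain ⟨j, hj⟩ := hsurj ⟨y, hy⟩
      have h2 := hc j
      rw [hw] at h2
      simp only [hj] at h2
      rw [mem_closedBall, dist_comm, dist_eq_norm]
      exact h2
    rw [hIe] at this
    exact this
  have hsc : ∀ x y : E d, dist (D⁻¹ • x) (D⁻¹ • y) = D⁻¹ * dist x y := by
    intro x y
    rw [dist_smul₀, Real.norm_eq_abs, abs_of_pos (inv_pos.mpr hpos)]
  have hle : ∀ x ∈ Y, ∀ y ∈ Y, dist (D⁻¹ • x) (D⁻¹ • y) ≤ 1 := by
    intro x hx y hy
    rw [hsc]
    calc D⁻¹ * dist x y ≤ D⁻¹ * D :=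
          mul_le_mul_of_nonneg_left (Metric.dist_le_diam_of_mem hbd hx hy) (inv_pos.mpr hpos).le
      _ = 1 := inv_mul_cancel₀ hD0
  obtain ⟨c, l, G, hGG, hcon⟩ := exists_contact hd (fun j => D⁻¹ • w j)
    (fun j k => hle _ (hwY j) _ (hwY k)) hG₀ hr0 hr2 (fun c hc => hno2 (D • c) fun j => by
      have h2 := hc j
      have e : w j - D • c = D • (D⁻¹ • w j - c) := by
        rw [smul_sub, smul_smul, mul_inv_cancel₀ hD0, one_smul]
      rw [e, norm_smul, Real.norm_eq_abs, abs_of_pos hpos, mul_comm]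
      exact mul_le_mul_of_nonneg_right h2 hpos.le)
  refine ⟨fun i => {x | x ∈ Y ∧ ∃ a : Fin (d + 1) → ℝ, (∀ j, 0 ≤ a j) ∧ a i = 0 ∧
    ∑ j, a j • (D⁻¹ • w j - c) = -(D⁻¹ • x - c)}, ?_, ?_⟩
  · ext x
    simp only [mem_iUnion]
    constructor
    · rintro ⟨i, hx, -⟩
      exact hx
    · intro hx
      obtain ⟨a, ha, ⟨i, hi⟩, hax⟩ := hcon.exists_comb hd (-(D⁻¹ • x - c))
      exact ⟨i, hx, a, ha, hi, hax⟩
  · intro i
    have hBD : √(max B 0) * D < D := by
      have h1 : √(max B 0) < 1 := by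
        rw [Real.sqrt_lt' one_pos]
        exact max_lt (by linarith) (by norm_num)
      nlinarith
    refine lt_of_le_of_lt (Metric.diam_le_of_forall_dist_le
      (mul_nonneg (Real.sqrt_nonneg _) hpos.le) ?_) hBD
    rintro x ⟨hx, a, ha, hai, hax⟩ y ⟨hy, b, hb, hbi, hby⟩
    have hxx : ∀ j, ‖(D⁻¹ • x - c) - (D⁻¹ • w j - c)‖ ≤ 1 := by
      intro j
      rw [sub_sub_sub_cancel_right, ← dist_eq_norm]
      exact hle _ hx _ (hwY j)
    have hyy : ∀ j, ‖(D⁻¹ • y - c) - (D⁻¹ • w j - c)‖ ≤ 1 := by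
      intro j
      rw [sub_sub_sub_cancel_right, ← dist_eq_norm]
      exact hle _ hy _ (hwY j)
    have h1 := hcon.pair_le hd (A := A) hG₀ hGG hG1 ha hb hai hbi hax hby hxx hyy
    rw [sub_sub_sub_cancel_right, ← dist_eq_norm, hsc] at h1
    have h2 : D⁻¹ * dist x y ≤ √(max B 0) := by
      apply Real.le_sqrt_of_sq_le
      exact le_trans h1 (le_max_left _ _)
    calc dist x y = (D⁻¹ * dist x y) * D := by field_simp
      _ ≤ √(max B 0) * D := mul_le_mul_of_nonneg_right h2 hpos.le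

/-- **explicit radii**: `√0.39 = 0.6245` in dimension 4 (Jung: 0.63246), `√0.4125` in dimension
5, `√0.428` in dimension 6. -/
theorem main_explicit (d : ℕ) (G₀ : ℝ)
    (h : (d = 4 ∧ G₀ = 39 / 100) ∨ (d = 5 ∧ G₀ = 33 / 80) ∨ (d = 6 ∧ G₀ = 107 / 250))
    (Y : Set (E d)) (hbd : Bornology.IsBounded Y) (hpos : 0 < Metric.diam Y)
    (hno : ∀ c : E d, ¬ Y ⊆ closedBall c (√G₀ * Metric.diam Y)) :
    IsSmallerCover Y (d + 1) := by
  rcases h with ⟨rfl, rfl⟩ | ⟨rfl, rfl⟩ | ⟨rfl, rfl⟩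
  · exact cover_explicit (A := 287 / 1000) (by norm_num) (by norm_num) (by norm_num)
      (by norm_num) Y hbd hpos hno
  · exact cover_explicit (A := 533 / 2000) (by norm_num) (by norm_num) (by norm_num)
      (by norm_num) Y hbd hpos hno
  · exact cover_explicit (A := 127 / 500) (by norm_num) (by norm_num) (by norm_num)
      (by norm_num) Y hbd hpos hno

end Vale.Agent.P052.J373
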