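import Vale.Agent.P052.R4.H373.CellSeven
import Vale.Agent.P052.R4.H373.Circum

/-!
The final statements about sets which contain nearly regular simplices and about sets of large
circumradius, in dimensions 2 to 7.
-/

namespace Vale.Agent.P052.J373

open Metric Set

variable {d : ℕ}

theorem borsukNumber_le {Y : Set (E d)} {k : ℕ} (h : IsSmallerCover Y k) : borsukNumber Y ≤ k :=
  Nat.sInf_le h

/-- the cover, for points of the closure. -/
theorem cover_of_simplex_closure (hC : CellLt d) : ∃ η : ℝ, 0 < η ∧ η < 1 ∧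
    ∀ Y : Set (E d), Bornology.IsBounded Y → 0 < Metric.diam Y →
      (∃ v : Fin (d + 1) → E d, (∀ j, v j ∈ closure Y) ∧
        ∀ j k, j ≠ k → (1 - η) * Metric.diam Y ≤ dist (v j) (v k)) →
      IsSmallerCover Y (d + 1) := by
  obtain ⟨η, h0, h1, h⟩ := cover_of_simplex hC
  refine ⟨η / 2, by linarith, by linarith, ?_⟩
  rintro Y hbd hpos ⟨v, hv, hvd⟩
  apply h Y hbd hpos
  have hδ : 0 < η / 4 * Metric.diam Y := by positivity
  have hex : ∀ j, ∃ y ∈ Y, dist (v j) y < η / 4 * Metric.diam Y :=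
    fun j => Metric.mem_closure_iff.mp (hv j) _ hδ
  choose y hyY hyd using hex
  refine ⟨y, hyY, fun j k hjk => ?_⟩
  have h2 := hvd j k hjk
  have h3 : dist (v j) (v k) ≤ dist (v j) (y j) + dist (y j) (y k) + dist (y k) (v k) :=
    dist_triangle4 _ _ _ _
  have h4 := hyd j
  have h5 := hyd k
  rw [dist_comm] at h5
  nlinarith

theorem main_simplex (hd1 : 2 ≤ d) (hd : d ≤ 7) : ∃ η : ℝ, 0 < η ∧ η < 1 ∧
    ∀ Y : Set (E d), Bornology.IsBounded Y → 0 < Metric.diam Y →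
      (∃ v : Fin (d + 1) → E d, (∀ j, v j ∈ closure Y) ∧
        ∀ j k, j ≠ k → (1 - η) * Metric.diam Y ≤ dist (v j) (v k)) →
      IsSmallerCover Y (d + 1) ∧ borsukNumber Y ≤ d + 1 := by
  obtain ⟨η, h0, h1, h⟩ := cover_of_simplex_closure (cellLt hd1 hd)
  exact ⟨η, h0, h1, fun Y hY hp hv => ⟨h Y hY hp hv, borsukNumber_le (h Y hY hp hv)⟩⟩

theorem main_circumradius (hd1 : 2 ≤ d) (hd : d ≤ 7) : ∃ ε : ℝ, 0 < ε ∧ ε < 1 ∧
    ∀ Y : Set (E d), Bornology.IsBounded Y → 0 < Metric.diam Y →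
      (∀ c : E d, ¬ Y ⊆ closedBall c ((1 - ε) * √(d / (2 * (d + 1))) * Metric.diam Y)) →
      IsSmallerCover Y (d + 1) ∧ borsukNumber Y ≤ d + 1 := by
  obtain ⟨η, h0, h1, h⟩ := cover_of_circumradius (cellLt hd1 hd)
  exact ⟨η, h0, h1, fun Y hY hp hv => ⟨h Y hY hp hv, borsukNumber_le (h Y hY hp hv)⟩⟩

end Vale.Agent.P052.J373
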