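import Vale.Agent.P052.R4.H373.FinalOne
import Vale.Agent.P052.R4.H373.Ball

/-!
The final statement about sets in small balls, every dimension.
-/

namespace Vale.Agent.P052.J373

open Metric Set

variable {d : ℕ}

theorem main_ball (hd : 1 ≤ d) (Y : Set (E d)) (hpos : 0 < Metric.diam Y) (c : E d) (r : ℝ)
    (hYr : Y ⊆ closedBall c r)
    (hr : r ^ 2 < (d + 2) / (4 * (d + 1)) * Metric.diam Y ^ 2) :
    IsSmallerCover Y (d + 1) ∧ borsukNumber Y ≤ d + 1 :=
  ⟨cover_of_ball hd Y hpos c r hYr hr, borsukNumber_le (cover_of_ball hd Y hpos c r hYr hr)⟩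

end Vale.Agent.P052.J373
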