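import Vale.Agent.P052.R4.H373.ExplicitMain

/-!
The explicit circumradius theorem in dimensions 4, 5, 6, in Mathlib terms only.
-/

namespace Vale.Agent.P052.J373

/-- A bounded set `X ⊆ ℝ^d` of positive diameter which lies in no ball of radius `√G * diam X`,
where `G = 39/100` for `d = 4`, `G = 33/80` for `d = 5`, `G = 107/250` for `d = 6` (the squares of
Jung's radii are `2/5`, `5/12`, `3/7`), is a union of `d + 1` sets of smaller diameter. -/
theorem explicit_plain (d : ℕ) (G : ℝ)
    (h : (d = 4 ∧ G = 39 / 100) ∨ (d = 5 ∧ G = 33 / 80) ∨ (d = 6 ∧ G = 107 / 250))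
    (X : Set (EuclideanSpace ℝ (Fin d))) (hX : Bornology.IsBounded X) (hD : 0 < Metric.diam X)
    (hno : ∀ c, ¬ X ⊆ Metric.closedBall c (Real.sqrt G * Metric.diam X)) :
    ∃ P : Fin (d + 1) → Set (EuclideanSpace ℝ (Fin d)),
      (⋃ i, P i) = X ∧ ∀ i, Metric.diam (P i) < Metric.diam X :=
  main_explicit d G h X hX hD hno

end Vale.Agent.P052.J373
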