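import Mathlib

/-!
Regular simplices with edge 1 in `ℝ^d`: the Gram matrix, the tight frame identity, and the
diameter of the cells of the associated Reuleaux simplex.
-/

namespace Vale.Agent.P052.J373

open Module
open scoped RealInnerProductSpace

/-- `ℝ^d`. -/
abbrev E (d : ℕ) := EuclideanSpace ℝ (Fin d)

/-- centred regular simplex of edge one. -/
structure IsReg {d : ℕ} (w : Fin (d + 1) → E d) : Prop where
  sum : ∑ j, w j = 0
  one : ∀ i j, i ≠ j → ‖w i - w j‖ = 1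

variable {d : ℕ} {w : Fin (d + 1) → E d}

theorem IsReg.norm_sq (h : IsReg w) (i : Fin (d + 1)) :
    ‖w i‖ ^ 2 = d / (2 * (d + 1)) := by
  classical
  have key : ∀ i, (d : ℝ) = (d + 1) * ‖w i‖ ^ 2 + ∑ j, ‖w j‖ ^ 2 := by
    intro i
    have h1 : ∑ j, ‖w i - w j‖ ^ 2 = d := by
      have h2 : ∀ j, ‖w i - w j‖ ^ 2 = if j = i then (0 : ℝ) else 1 := by
        intro j
        by_cases hj : j = i
        · rw [if_pos hj, hj, sub_self, norm_zero]; norm_num
        · rw [if_neg hj, h.one i j (Ne.symm hj)]; norm_num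
      rw [Finset.sum_congr rfl (fun j _ => h2 j), Finset.sum_ite, Finset.sum_const_zero, zero_add,
        Finset.sum_const, nsmul_eq_mul, mul_one]
      have h3 : (Finset.univ.filter (fun j => ¬ j = i)) = Finset.univ.erase i := by
        ext j; simp
      rw [h3, Finset.card_erase_of_mem (Finset.mem_univ i), Finset.card_univ, Fintype.card_fin]
      simp
    have h4 : ∑ j, ‖w i - w j‖ ^ 2 = ∑ j, (‖w i‖ ^ 2 - 2 * ⟪w i, w j⟫ + ‖w j‖ ^ 2) :=
      Finset.sum_congr rfl (fun j _ => norm_sub_sq_real _ _)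
    rw [h1, Finset.sum_add_distrib, Finset.sum_sub_distrib, Finset.sum_const, nsmul_eq_mul,
      ← Finset.mul_sum, ← inner_sum, h.sum, inner_zero_right, Finset.card_univ,
      Fintype.card_fin] at h4
    push_cast at h4
    linarith
  have hS : ∑ j, ‖w j‖ ^ 2 = (d + 1) * ‖w i‖ ^ 2 := by
    have h5 : ∀ j ∈ (Finset.univ : Finset (Fin (d + 1))), ‖w j‖ ^ 2 = ‖w i‖ ^ 2 := by
      intro j _
      have h6 := key i
      have h7 := key j
      have h8 : ((d : ℝ) + 1) * (‖w j‖ ^ 2 - ‖w i‖ ^ 2) = 0 := by linarith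
      have h9 : ((d : ℝ) + 1) ≠ 0 := by positivity
      have := (mul_eq_zero.mp h8).resolve_left h9
      linarith
    rw [Finset.sum_congr rfl h5, Finset.sum_const, nsmul_eq_mul, Finset.card_univ,
      Fintype.card_fin]
    push_cast
    ring
  have h10 := key i
  rw [hS] at h10
  rw [eq_div_iff (by positivity)]
  linarith

theorem IsReg.inner (h : IsReg w) {i j : Fin (d + 1)} (hij : i ≠ j) :
    ⟪w i, w j⟫ = -(1 / (2 * (d + 1))) := by
  have h1 := norm_sub_sq_real (w i) (w j)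
  rw [h.one i j hij, h.norm_sq i, h.norm_sq j] at h1
  have h2 : ((d : ℝ) + 1) ≠ 0 := by positivity
  field_simp at h1 ⊢
  linarith

theorem IsReg.sum_inner (h : IsReg w) (x : E d) : ∑ j, ⟪x, w j⟫ = 0 := by
  rw [← inner_sum, h.sum, inner_zero_right]

/-- inner products with a linear combination. -/
theorem IsReg.inner_comb (h : IsReg w) (c : Fin (d + 1) → ℝ) (k : Fin (d + 1)) :
    ⟪∑ j, c j • w j, w k⟫ = c k / 2 - (∑ j, c j) / (2 * (d + 1)) := by
  classical
  rw [_root_.sum_inner]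
  have h1 : ∀ j ∈ (Finset.univ : Finset (Fin (d + 1))), ⟪c j • w j, w k⟫ =
      (if j = k then c j / 2 else 0) - c j / (2 * (d + 1)) := by
    intro j _
    rw [real_inner_smul_left]
    have h2 : ((d : ℝ) + 1) ≠ 0 := by positivity
    by_cases hj : j = k
    · subst hj
      rw [if_pos rfl, real_inner_self_eq_norm_sq, h.norm_sq]
      field_simp
      ring
    · rw [if_neg hj, h.inner hj]
      field_simp
      ring
  rw [Finset.sum_congr rfl h1, Finset.sum_sub_distrib, Finset.sum_ite_eq' Finset.univ k,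
    if_pos (Finset.mem_univ k), Finset.sum_div]

theorem IsReg.span (h : IsReg w) : Submodule.span ℝ (Set.range w) = ⊤ := by
  have hli : LinearIndependent ℝ (fun i : Fin d => w i.succ) := by
    rw [Fintype.linearIndependent_iff]
    intro g hg i
    let c : Fin (d + 1) → ℝ := Fin.cons 0 g
    have h1 : ∑ j, c j • w j = 0 := by
      rw [Fin.sum_univ_succ]
      simp only [c, Fin.cons_zero, Fin.cons_succ, zero_smul, zero_add]
      exact hg
    have h2 : ∀ k, c k / 2 - (∑ j, c j) / (2 * (d + 1)) = 0 := by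
      intro k
      rw [← h.inner_comb c k, h1, inner_zero_left]
    have h3 := h2 0
    have h4 := h2 i.succ
    simp only [c, Fin.cons_zero, Fin.cons_succ] at h3 h4
    linarith
  have h5 : Submodule.span ℝ (Set.range (fun i : Fin d => w i.succ)) = ⊤ := by
    apply hli.span_eq_top_of_card_eq_finrank'
    rw [Fintype.card_fin, finrank_euclideanSpace, Fintype.card_fin]
  rw [eq_top_iff, ← h5]
  apply Submodule.span_mono
  rintro _ ⟨i, rfl⟩
  exact ⟨i.succ, rfl⟩

/-- **tight frame identity**. -/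
theorem IsReg.frame (h : IsReg w) (x : E d) : x = ∑ j, (2 * ⟪x, w j⟫) • w j := by
  have h1 : ∀ k, ⟪x - ∑ j, (2 * ⟪x, w j⟫) • w j, w k⟫ = 0 := by
    intro k
    rw [inner_sub_left, h.inner_comb, ← Finset.mul_sum, h.sum_inner]
    ring
  have h2 : x - ∑ j, (2 * ⟪x, w j⟫) • w j = 0 := by
    have h3 : ∀ y ∈ Submodule.span ℝ (Set.range w), ⟪x - ∑ j, (2 * ⟪x, w j⟫) • w j, y⟫ = 0 := by
      intro y hy
      induction hy using Submodule.span_induction with
      | mem y hy => obtain ⟨k, rfl⟩ := hy; exact h1 k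
      | zero => exact inner_zero_right _
      | add a b _ _ ha hb => rw [inner_add_right, ha, hb, add_zero]
      | smul r a _ ha => rw [real_inner_smul_right, ha, mul_zero]
    rw [h.span] at h3
    exact inner_self_eq_zero.mp (h3 _ Submodule.mem_top)
  exact sub_eq_zero.mp h2

theorem IsReg.inner_eq (h : IsReg w) (x y : E d) :
    ⟪x, y⟫ = 2 * ∑ j, ⟪x, w j⟫ * ⟪y, w j⟫ := by
  conv_lhs => rw [h.frame x, _root_.sum_inner]
  rw [Finset.mul_sum]
  apply Finset.sum_congr rfl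
  intro j _
  rw [real_inner_smul_left, real_inner_comm y (w j)]
  ring

theorem IsReg.norm_eq (h : IsReg w) (x : E d) :
    ‖x‖ ^ 2 = 2 * ∑ j, ⟪x, w j⟫ ^ 2 := by
  rw [← real_inner_self_eq_norm_sq, h.inner_eq]
  congr 1
  apply Finset.sum_congr rfl
  intro j _
  ring

/-- the first inequality for points of the cell `i`. -/
theorem IsReg.cell (h : IsReg w) {x : E d} {i : Fin (d + 1)} (hx : ∀ j, ‖x - w j‖ ≤ 1)
    (hi : ∀ j, ⟪x, w j⟫ ≤ ⟪x, w i⟫) :
    ‖x‖ ^ 2 ≤ ((d + 2) / (2 * (d + 1)) - ‖x‖ ^ 2) * ((d + 1) * ⟪x, w i⟫) := by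
  have h2 : ((d : ℝ) + 1) ≠ 0 := by positivity
  have hj : ∀ j, -(2 * ⟪x, w j⟫) ≤ (d + 2) / (2 * (d + 1)) - ‖x‖ ^ 2 := by
    intro j
    have h1 := norm_sub_sq_real x (w j)
    rw [h.norm_sq] at h1
    have h3 : ‖x - w j‖ ^ 2 ≤ 1 := by
      have := pow_le_pow_left₀ (norm_nonneg _) (hx j) 2
      simpa using this
    have h4 : ((d : ℝ) + 2) / (2 * (d + 1)) = 1 - d / (2 * (d + 1)) := by
      field_simp
      ring
    rw [h4]
    linarith
  have h5 : ‖x‖ ^ 2 = ∑ j, (-(2 * ⟪x, w j⟫)) * (⟪x, w i⟫ - ⟪x, w j⟫) := by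
    have h6 : ∑ j, (-(2 * ⟪x, w j⟫)) * (⟪x, w i⟫ - ⟪x, w j⟫) =
        2 * ∑ j, ⟪x, w j⟫ ^ 2 - 2 * ⟪x, w i⟫ * ∑ j, ⟪x, w j⟫ := by
      rw [Finset.mul_sum, Finset.mul_sum, ← Finset.sum_sub_distrib]
      apply Finset.sum_congr rfl
      intro j _
      ring
    rw [h6, h.sum_inner, ← h.norm_eq]
    ring
  have h7 : ∑ j, (-(2 * ⟪x, w j⟫)) * (⟪x, w i⟫ - ⟪x, w j⟫) ≤
      ∑ j, ((d + 2) / (2 * (d + 1)) - ‖x‖ ^ 2) * (⟪x, w i⟫ - ⟪x, w j⟫) := by
    apply Finset.sum_le_sum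
    intro j _
    exact mul_le_mul_of_nonneg_right (hj j) (by linarith [hi j])
  rw [← h5, ← Finset.mul_sum, Finset.sum_sub_distrib, h.sum_inner, Finset.sum_const,
    nsmul_eq_mul, Finset.card_univ, Fintype.card_fin] at h7
  push_cast at h7
  linarith

/-- the second inequality. -/
theorem IsReg.pair (h : IsReg w) (x y : E d) (i : Fin (d + 1)) :
    ‖x - y‖ ^ 2 * (d / (2 * (d + 1))) ≤
      (2 * ‖x‖ ^ 2 + 2 * ‖y‖ ^ 2) * (d / (2 * (d + 1))) - (⟪x, w i⟫ + ⟪y, w i⟫) ^ 2 := by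
  have h1 := parallelogram_law_with_norm ℝ x y
  have h2 : (⟪x, w i⟫ + ⟪y, w i⟫) ^ 2 ≤ ‖x + y‖ ^ 2 * (d / (2 * (d + 1))) := by
    rw [← inner_add_left, ← h.norm_sq i, ← mul_pow]
    exact sq_le_sq' (by linarith [neg_abs_le (⟪x + y, w i⟫), abs_real_inner_le_norm (x + y) (w i)])
      (real_inner_le_norm _ _)
  have h3 : ‖x - y‖ ^ 2 = 2 * ‖x‖ ^ 2 + 2 * ‖y‖ ^ 2 - ‖x + y‖ ^ 2 := by nlinarith
  rw [h3]
  linarith

end Vale.Agent.P052.J373
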