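import Vale.Agent.P052.R4.H373.CellBound
import Vale.Agent.P052.Defs

/-!
Stability: nearly regular simplices, and the cover of a set which contains one.
-/

namespace Vale.Agent.P052.J373

open Metric Set
open scoped RealInnerProductSpace

/-- in dimension `d` the cells of the Reuleaux simplex have diameter less than one. -/
def CellLt (d : ℕ) : Prop :=
  ∀ (w : Fin (d + 1) → E d), IsReg w → ∀ (i : Fin (d + 1)) (x y : E d),
    (∀ j, ‖x - w j‖ ≤ 1) → (∀ j, ‖y - w j‖ ≤ 1) →
    (∀ j, ⟪x, w j⟫ ≤ ⟪x, w i⟫) → (∀ j, ⟪y, w j⟫ ≤ ⟪y, w i⟫) → ‖x - y‖ < 1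

theorem cellLt_six {d : ℕ} (hd1 : 2 ≤ d) (hd : d ≤ 6) : CellLt d :=
  fun _ hw _ _ _ hx hy hxi hyi => hw.cell_lt hd1 hd hx hy hxi hyi

variable {d : ℕ}

/-- centring. -/
theorem isReg_of_dist (v : Fin (d + 1) → E d) (hv : ∀ i j, i ≠ j → dist (v i) (v j) = 1) :
    ∃ o : E d, IsReg (fun j => v j - o) := by
  refine ⟨((d : ℝ) + 1)⁻¹ • ∑ j, v j, ?_, ?_⟩
  · rw [Finset.sum_sub_distrib, Finset.sum_const, Finset.card_univ, Fintype.card_fin,
      ← Nat.cast_smul_eq_nsmul ℝ, smul_smul]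
    have : ((d + 1 : ℕ) : ℝ) * ((d : ℝ) + 1)⁻¹ = 1 := by
      push_cast
      exact mul_inv_cancel₀ (by positivity)
    rw [this, one_smul, sub_self]
  · intro i j hij
    rw [sub_sub_sub_cancel_right, ← dist_eq_norm]
    exact hv i j hij

theorem cell_dist (hC : CellLt d) (v : Fin (d + 1) → E d)
    (hv : ∀ i j, i ≠ j → dist (v i) (v j) = 1) (i : Fin (d + 1)) (x y : E d)
    (hx : ∀ j, dist x (v j) ≤ 1) (hy : ∀ j, dist y (v j) ≤ 1)
    (hxi : ∀ j, dist x (v i) ≤ dist x (v j)) (hyi : ∀ j, dist y (v i) ≤ dist y (v j)) :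
    dist x y < 1 := by
  obtain ⟨o, ho⟩ := isReg_of_dist v hv
  have e : ∀ (z : E d) j, (z - o) - (v j - o) = z - v j := fun z j => by abel
  have hin : ∀ z : E d, (∀ j, dist z (v i) ≤ dist z (v j)) →
      ∀ j, ⟪z - o, v j - o⟫ ≤ ⟪z - o, v i - o⟫ := by
    intro z hz j
    have h1 := norm_sub_sq_real (z - o) (v i - o)
    have h2 := norm_sub_sq_real (z - o) (v j - o)
    rw [e, ho.norm_sq i, ← dist_eq_norm] at h1
    rw [e, ho.norm_sq j, ← dist_eq_norm] at h2
    have h3 := pow_le_pow_left₀ dist_nonneg (hz j) 2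
    linarith
  have h := hC _ ho i (x - o) (y - o) (fun j => by rw [e, ← dist_eq_norm]; exact hx j)
    (fun j => by rw [e, ← dist_eq_norm]; exact hy j) (hin x hxi) (hin y hyi)
  rwa [sub_sub_sub_cancel_right, ← dist_eq_norm] at h

/-- configurations. -/
def KK (d : ℕ) (i : Fin (d + 1)) : Set ((Fin (d + 1) → E d) × E d × E d) :=
  {p | p.1 0 = 0 ∧ (∀ j k, dist (p.1 j) (p.1 k) ≤ 1) ∧
    ((∀ j, dist p.2.1 (p.1 j) ≤ 1) ∧ (∀ j, dist p.2.2 (p.1 j) ≤ 1)) ∧
    (∀ j, dist p.2.1 (p.1 i) ≤ dist p.2.1 (p.1 j)) ∧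
    (∀ j, dist p.2.2 (p.1 i) ≤ dist p.2.2 (p.1 j))}

theorem isCompact_KK (i : Fin (d + 1)) : IsCompact (KK d i) := by
  apply Metric.isCompact_of_isClosed_isBounded
  · unfold KK
    simp only [setOf_and, setOf_forall]
    refine IsClosed.inter (isClosed_eq (by fun_prop) continuous_const) (IsClosed.inter ?_
      (IsClosed.inter (IsClosed.inter ?_ ?_) (IsClosed.inter ?_ ?_)))
    · exact isClosed_iInter fun j => isClosed_iInter fun k =>
        isClosed_le (by fun_prop) continuous_const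
    · exact isClosed_iInter fun j => isClosed_le (by fun_prop) continuous_const
    · exact isClosed_iInter fun j => isClosed_le (by fun_prop) continuous_const
    · exact isClosed_iInter fun j => isClosed_le (by fun_prop) (by fun_prop)
    · exact isClosed_iInter fun j => isClosed_le (by fun_prop) (by fun_prop)
  · apply (Metric.isBounded_closedBall (x := (0 : (Fin (d + 1) → E d) × E d × E d))
      (r := 1)).subset
    rintro ⟨v, x, y⟩ ⟨h0, h1, ⟨h2, h3⟩, -, -⟩
    simp only at h0 h1 h2 h3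
    rw [mem_closedBall, Prod.dist_eq, Prod.dist_eq]
    refine max_le ?_ (max_le ?_ ?_)
    · rw [dist_pi_le_iff zero_le_one]
      intro j
      have := h1 j 0
      rw [h0] at this
      exact this
    · have := h2 0
      rw [h0] at this
      exact this
    · have := h3 0
      rw [h0] at this
      exact this

/-- the defect function. -/
noncomputable def psi (d : ℕ) (p : (Fin (d + 1) → E d) × E d × E d) : ℝ :=
  ∑ j, ∑ k, (if j = k then 0 else 1 - dist (p.1 j) (p.1 k)) + max 0 (1 - dist p.2.1 p.2.2)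

theorem continuous_psi : Continuous (psi d) := by
  unfold psi
  refine Continuous.add (continuous_finset_sum _ fun j _ => continuous_finset_sum _ fun k _ => ?_)
    (continuous_const.max (by fun_prop))
  by_cases h : j = k
  · simp only [h, if_true]
    exact continuous_const
  · simp only [h, if_false]
    fun_prop

theorem psi_pos (hC : CellLt d) (i : Fin (d + 1)) (p : (Fin (d + 1) → E d) × E d × E d)
    (hp : p ∈ KK d i) : 0 < psi d p := by
  obtain ⟨v, x, y⟩ := p
  obtain ⟨-, h1, ⟨h2, h3⟩, h4, h5⟩ := hp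
  simp only at h1 h2 h3 h4 h5
  have hterm : ∀ j ∈ (Finset.univ : Finset (Fin (d + 1))), ∀ k ∈ (Finset.univ : Finset
      (Fin (d + 1))), (0 : ℝ) ≤ if j = k then 0 else 1 - dist (v j) (v k) := by
    intro j _ k _
    split_ifs
    · exact le_rfl
    · linarith [h1 j k]
  have hs : 0 ≤ ∑ j, ∑ k, (if j = k then (0 : ℝ) else 1 - dist (v j) (v k)) :=
    Finset.sum_nonneg fun j hj => Finset.sum_nonneg fun k hk => hterm j hj k hk
  have hm : 0 ≤ max 0 (1 - dist x y) := le_max_left _ _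
  rcases hs.eq_or_lt with h0 | h0
  · have hall : ∀ j k, j ≠ k → dist (v j) (v k) = 1 := by
      intro j k hjk
      have e1 := (Finset.sum_eq_zero_iff_of_nonneg (fun j hj =>
        Finset.sum_nonneg fun k hk => hterm j hj k hk)).mp h0.symm j (Finset.mem_univ j)
      have e2 := (Finset.sum_eq_zero_iff_of_nonneg (fun k hk =>
        hterm j (Finset.mem_univ j) k hk)).mp e1 k (Finset.mem_univ k)
      rw [if_neg hjk] at e2
      linarith
    have h6 := cell_dist hC v hall i x y h2 h3 h4 h5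
    have h7 : 0 < max 0 (1 - dist x y) := lt_max_of_lt_right (by linarith)
    show 0 < _ + _
    linarith
  · show 0 < _ + _
    linarith

/-- **stability of the cell bound**. -/
theorem stable (hC : CellLt d) : ∃ η : ℝ, 0 < η ∧ η < 1 ∧ ∀ (v : Fin (d + 1) → E d),
    (∀ j k, dist (v j) (v k) ≤ 1) → (∀ j k, j ≠ k → 1 - η ≤ dist (v j) (v k)) →
    ∀ (i : Fin (d + 1)) (x y : E d), (∀ j, dist x (v j) ≤ 1) → (∀ j, dist y (v j) ≤ 1) →
      (∀ j, dist x (v i) ≤ dist x (v j)) → (∀ j, dist y (v i) ≤ dist y (v j)) →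
      dist x y ≤ 1 - η := by
  have h1 : ∀ i : Fin (d + 1), ∃ ε : ℝ, 0 < ε ∧ ∀ p ∈ KK d i, ε ≤ psi d p := by
    intro i
    rcases (KK d i).eq_empty_or_nonempty with h0 | h0
    · exact ⟨1, one_pos, fun p hp => by rw [h0] at hp; exact absurd hp (notMem_empty p)⟩
    · obtain ⟨p, hp, hmin⟩ := (isCompact_KK i).exists_isMinOn h0 continuous_psi.continuousOn
      exact ⟨psi d p, psi_pos hC i p hp, fun q hq => hmin hq⟩
  choose ε hε hle using h1
  obtain ⟨i₀, hi₀⟩ := Finite.exists_min ε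
  set e := ε i₀ with he
  have he0 : 0 < e := hε i₀
  have hN : (0 : ℝ) < (d + 1) * (d + 1) := by positivity
  set η : ℝ := min (1 / 2) (e / (4 * ((d + 1) * (d + 1)))) with hη
  have hη0 : 0 < η := lt_min (by norm_num) (by positivity)
  have hη1 : η ≤ 1 / 2 := min_le_left _ _
  have hη2 : ((d : ℝ) + 1) * (d + 1) * η ≤ e / 4 := by
    have h2 : η ≤ e / (4 * ((d + 1) * (d + 1))) := min_le_right _ _
    calc ((d : ℝ) + 1) * (d + 1) * η ≤ (d + 1) * (d + 1) * (e / (4 * ((d + 1) * (d + 1)))) :=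
          mul_le_mul_of_nonneg_left h2 hN.le
      _ = e / 4 := by field_simp
  have hη3 : η ≤ e / 4 := by
    have : (1 : ℝ) ≤ (d + 1) * (d + 1) := by
      have : (0 : ℝ) ≤ d := by positivity
      nlinarith
    nlinarith
  refine ⟨η, hη0, by linarith, ?_⟩
  intro v hv1 hv2 i x y hx hy hxi hyi
  let p : (Fin (d + 1) → E d) × E d × E d := (fun j => v j - v 0, x - v 0, y - v 0)
  have hp : p ∈ KK d i := by
    refine ⟨sub_self _, fun j k => ?_, ⟨fun j => ?_, fun j => ?_⟩, fun j => ?_, fun j => ?_⟩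
    · show dist (v j - v 0) (v k - v 0) ≤ 1
      rw [dist_sub_right]; exact hv1 j k
    · show dist (x - v 0) (v j - v 0) ≤ 1
      rw [dist_sub_right]; exact hx j
    · show dist (y - v 0) (v j - v 0) ≤ 1
      rw [dist_sub_right]; exact hy j
    · show dist (x - v 0) (v i - v 0) ≤ dist (x - v 0) (v j - v 0)
      rw [dist_sub_right, dist_sub_right]; exact hxi j
    · show dist (y - v 0) (v i - v 0) ≤ dist (y - v 0) (v j - v 0)
      rw [dist_sub_right, dist_sub_right]; exact hyi j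
  have h3 : e ≤ psi d p := (hi₀ i).trans (hle i p hp)
  have h4 : psi d p = ∑ j, ∑ k, (if j = k then (0 : ℝ) else 1 - dist (v j) (v k)) +
      max 0 (1 - dist x y) := by
    show ∑ j, ∑ k, (if j = k then (0 : ℝ) else 1 - dist (v j - v 0) (v k - v 0)) +
      max 0 (1 - dist (x - v 0) (y - v 0)) = _
    simp only [dist_sub_right]
  have h5 : ∑ j, ∑ k, (if j = k then (0 : ℝ) else 1 - dist (v j) (v k)) ≤
      ∑ _j : Fin (d + 1), ∑ _k : Fin (d + 1), η := by
    refine Finset.sum_le_sum fun j _ => Finset.sum_le_sum fun k _ => ?_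
    split_ifs with hjk
    · exact hη0.le
    · linarith [hv2 j k hjk]
  rw [Finset.sum_const, Finset.sum_const, Finset.card_univ, Fintype.card_fin, nsmul_eq_mul,
    nsmul_eq_mul] at h5
  push_cast at h5
  rw [h4] at h3
  have h6 : e * (3 / 4) ≤ max 0 (1 - dist x y) := by
    have : ((d : ℝ) + 1) * ((d + 1) * η) ≤ e / 4 := by rw [← mul_assoc]; exact hη2
    linarith
  have h7 : e * (3 / 4) ≤ 1 - dist x y := by
    rcases le_max_iff.mp h6 with h | h
    · exfalso
      linarith
    · exact h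
  linarith

end Vale.Agent.P052.J373
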